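import Crest.Agent.FE.Fock

/-! Row 89: the C⋆-algebra of the Fock model, its trace, Schwinger–Dyson identities. -/

set_option autoImplicit false
set_option linter.unusedSectionVars false
open scoped InnerProductSpace
open Crest.OpAlg

namespace Crest.Agent.FE

theorem sum_cuts {α M : Type} [DecidableEq α] [AddCommMonoid M] (x : α) (Q : List α)
    (f : List α × List α → M) : ((cuts x Q).map f).sum =
      ∑ k ∈ Finset.range Q.length, if Q[k]? = some x then f (Q.take k, Q.drop (k + 1)) else 0 := by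
  induction Q generalizing f with
  | nil => simp [cuts]
  | cons y Q ih =>
    rw [List.length_cons, Finset.sum_range_succ', cuts, List.map_append, List.sum_append,
      List.map_map, ih, add_comm]
    congr 1
    by_cases h : y = x <;> simp [h]

namespace Fock
variable {Λ H : Type} [DecidableEq Λ] [NormedAddCommGroup H] [InnerProductSpace ℂ H]
  [CompleteSpace H] (F : Fock Λ H)

noncomputable def s (x : Λ) : H →L[ℂ] H := F.l x + star (F.l x)

noncomputable def t0 (a : H →L[ℂ] H) : ℂ := ⟪F.Ω, a F.Ω⟫_ℂ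

theorem star_s (x : Λ) : star (F.s x) = F.s x := by simp [s, add_comm]

theorem inner_star (a : H →L[ℂ] H) (v w : H) : ⟪v, star a w⟫_ℂ = ⟪a v, w⟫_ℂ := by
  rw [ContinuousLinearMap.star_eq_adjoint, ContinuousLinearMap.adjoint_inner_right]

theorem inner_star' (a : H →L[ℂ] H) (v w : H) : ⟪star a v, w⟫_ℂ = ⟪v, a w⟫_ℂ := by
  rw [ContinuousLinearMap.star_eq_adjoint, ContinuousLinearMap.adjoint_inner_left]

theorem inner_Ω : ⟪F.Ω, F.Ω⟫_ℂ = 1 := by rw [inner_self_eq_norm_sq_to_K, F.norm_Ω]; simp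

theorem sl_Ω (x : Λ) : star (F.l x) F.Ω = 0 := by simpa [F.U_zero] using F.lΩ x 0

theorem s_Ω (x : Λ) : F.s x F.Ω = F.l x F.Ω := by simp [s, F.sl_Ω]

theorem ll0 (x y : Λ) (v : H) : star (F.l x) (F.l y v) = if x = y then v else 0 := by
  have := congrArg (fun T : H →L[ℂ] H => T v) (F.ll x y 0)
  simp only [F.U_zero, mul_one, ContinuousLinearMap.mul_apply, and_true] at this
  rw [this]; split_ifs <;> rfl

theorem llp (x y : Λ) (p : ℤ) (v : H) :
    star (F.l x) (F.U p (F.l y v)) = if x = y ∧ p = 0 then v else 0 := by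
  have := congrArg (fun T : H →L[ℂ] H => T v) (F.ll x y p)
  simp only [ContinuousLinearMap.mul_apply] at this
  rw [this]; split_ifs <;> rfl

theorem UU (p q : ℤ) (v : H) : F.U p (F.U q v) = F.U (p + q) v := by rw [F.U_add]; rfl

theorem norm_U (p : ℤ) (v : H) : ‖F.U p v‖ = ‖v‖ := by
  have : ⟪F.U p v, F.U p v⟫_ℂ = ⟪v, v⟫_ℂ := by
    rw [← inner_star, F.star_U, F.UU, neg_add_cancel, F.U_zero]; rfl
  rw [inner_self_eq_norm_sq_to_K, inner_self_eq_norm_sq_to_K] at this
  exact (pow_left_inj₀ (norm_nonneg _) (norm_nonneg _) two_ne_zero).1 (by exact_mod_cast this)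

theorem norm_l (x : Λ) (v : H) : ‖F.l x v‖ = ‖v‖ := by
  have : ⟪F.l x v, F.l x v⟫_ℂ = ⟪v, v⟫_ℂ := by rw [← inner_star, F.ll0, if_pos rfl]
  rw [inner_self_eq_norm_sq_to_K, inner_self_eq_norm_sq_to_K] at this
  exact (pow_left_inj₀ (norm_nonneg _) (norm_nonneg _) two_ne_zero).1 (by exact_mod_cast this)

theorem opn_U (p : ℤ) : ‖F.U p‖ ≤ 1 :=
  ContinuousLinearMap.opNorm_le_bound _ zero_le_one fun v => by rw [F.norm_U, one_mul]

theorem opn_s (x : Λ) : ‖F.s x‖ ≤ 2 := by
  have : ‖F.l x‖ ≤ 1 :=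
    ContinuousLinearMap.opNorm_le_bound _ zero_le_one fun v => by rw [F.norm_l, one_mul]
  refine (norm_add_le _ _).trans ?_
  rw [norm_star]; linarith

theorem srU (x : Λ) (p : ℤ) (v : H) : star (F.r x) (F.U p v) = F.U p (star (F.r x) v) := by
  have := congrArg star (F.rU x (-p))
  rw [star_mul, star_mul, F.star_U, neg_neg] at this
  exact congrArg (fun T : H →L[ℂ] H => T v) this.symm

theorem srsl (x y : Λ) (v : H) :
    star (F.r x) (star (F.l y) v) = star (F.l y) (star (F.r x) v) := by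
  have := congrArg star (F.rl x y)
  rw [star_mul, star_mul] at this
  exact congrArg (fun T : H →L[ℂ] H => T v) this.symm

theorem srs (x y : Λ) (v : H) : star (F.r x) (F.s y v) =
    F.s y (star (F.r x) v) + if x = y then ⟪F.Ω, v⟫_ℂ • F.Ω else 0 := by
  simp only [s, ContinuousLinearMap.add_apply, map_add, F.srl, F.srsl]; abel

theorem slr (x y : Λ) (v : H) : star (F.l y) (F.r x v) =
    F.r x (star (F.l y) v) + if x = y then ⟪F.Ω, v⟫_ℂ • F.Ω else 0 := by
  refine ext_inner_left ℂ fun w => ?_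
  rw [inner_star, ← inner_star', F.srl, inner_add_left, inner_add_right, ← inner_star,
    inner_star' (F.r x)]
  congr 1
  split_ifs
  · rw [inner_smul_left, inner_smul_right, inner_conj_symm, mul_comm]
  · simp

theorem rho_s (x y : Λ) :
    (F.r x + star (F.r x)) * F.s y = F.s y * (F.r x + star (F.r x)) := by
  ext v
  have h1 := congrArg (fun T : H →L[ℂ] H => T v) (F.rl x y)
  simp only [ContinuousLinearMap.mul_apply] at h1
  simp only [ContinuousLinearMap.mul_apply, ContinuousLinearMap.add_apply, F.srs]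
  simp only [s, ContinuousLinearMap.add_apply, map_add, F.slr, h1]; abel

theorem R_s (p : ℤ) (y : Λ) : F.R p * F.s y = F.s y * F.R p := by
  have := congrArg star (F.Rl (-p) y)
  rw [star_mul, star_mul, F.star_R, neg_neg] at this
  rw [s, mul_add, add_mul, F.Rl, this]

noncomputable def alg : StarSubalgebra ℂ (H →L[ℂ] H) :=
  (StarAlgebra.adjoin ℂ (Set.range F.U ∪ Set.range F.s)).topologicalClosure

instance : IsClosed (F.alg : Set (H →L[ℂ] H)) := StarSubalgebra.isClosed_topologicalClosure _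

theorem U_mem (p : ℤ) : F.U p ∈ F.alg :=
  StarSubalgebra.le_topologicalClosure _ (StarAlgebra.subset_adjoin _ _ (Or.inl ⟨p, rfl⟩))

theorem s_mem (x : Λ) : F.s x ∈ F.alg :=
  StarSubalgebra.le_topologicalClosure _ (StarAlgebra.subset_adjoin _ _ (Or.inr ⟨x, rfl⟩))

theorem alg_ind {p : (H →L[ℂ] H) → Prop} (hc : IsClosed {a | p a}) (hU : ∀ q, p (F.U q))
    (hs : ∀ x, p (F.s x)) (h1 : ∀ c : ℂ, p (algebraMap ℂ _ c)) (hadd : ∀ a b, p a → p b → p (a + b))
    (hmul : ∀ a b, p a → p b → p (a * b)) : ∀ a ∈ F.alg, p a := by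
  have : ∀ a ∈ StarAlgebra.adjoin ℂ (Set.range F.U ∪ Set.range F.s), p a := by
    intro a ha
    rw [← StarSubalgebra.mem_toSubalgebra, StarAlgebra.adjoin_toSubalgebra] at ha
    induction ha using Algebra.adjoin_induction with
    | mem a ha =>
      rcases ha with (⟨q, rfl⟩ | ⟨x, rfl⟩) | (⟨q, h⟩ | ⟨x, h⟩)
      · exact hU q
      · exact hs x
      · rw [← star_star a, ← h, F.star_U]; exact hU _
      · rw [← star_star a, ← h, F.star_s]; exact hs _
    | algebraMap c => exact h1 c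
    | add a b _ _ ha hb => exact hadd a b ha hb
    | mul a b _ _ ha hb => exact hmul a b ha hb
  exact fun a ha => closure_minimal (t := {a | p a}) this hc ha

theorem comm_alg {T : H →L[ℂ] H} (hU : ∀ q, T * F.U q = F.U q * T) (hs : ∀ x, T * F.s x = F.s x * T) :
    ∀ a ∈ F.alg, T * a = a * T :=
  F.alg_ind (isClosed_eq (by fun_prop) (by fun_prop)) hU hs (fun c => (Algebra.commutes c T).symm)
    (fun a b ha hb => by rw [mul_add, add_mul, ha, hb])
    (fun a b ha hb => by rw [← mul_assoc, ha, mul_assoc, hb, mul_assoc])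

theorem cont_t0 : Continuous F.t0 := by unfold t0; fun_prop

theorem t0_gen {g T w : H →L[ℂ] H} (hT : T * w = w * T) (h1 : T F.Ω = g F.Ω)
    (h2 : star T F.Ω = star g F.Ω) : F.t0 (g * w) = F.t0 (w * g) := by
  have := congrArg (fun S : H →L[ℂ] H => S F.Ω) hT
  simp only [ContinuousLinearMap.mul_apply] at this
  simp only [t0, ContinuousLinearMap.mul_apply]
  rw [← h1, ← this, ← inner_star', ← inner_star' T, h2]

theorem t0_comm : ∀ a ∈ F.alg, ∀ w ∈ F.alg, F.t0 (a * w) = F.t0 (w * a) := by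
  have := F.alg_ind (p := fun a => a ∈ F.alg ∧ ∀ w ∈ F.alg, F.t0 (a * w) = F.t0 (w * a)) ?_ ?_ ?_ ?_ ?_ ?_
  · exact fun a ha => (this a ha).2
  · simp only [Set.setOf_and, Set.setOf_forall]
    refine IsClosed.inter (inferInstanceAs (IsClosed (F.alg : Set (H →L[ℂ] H)))) (isClosed_iInter fun w =>
      isClosed_iInter fun _ => isClosed_eq (F.cont_t0.comp (by fun_prop)) (F.cont_t0.comp (by fun_prop)))
  · exact fun q => ⟨F.U_mem q, fun w hw => F.t0_gen (F.comm_alg (F.RU q) (F.R_s q) w hw) (F.RΩ q)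
      (by rw [F.star_R, F.star_U, F.RΩ])⟩
  · refine fun x => ⟨F.s_mem x, fun w hw => F.t0_gen (T := F.r x + star (F.r x))
      (F.comm_alg (fun q => ?_) (F.rho_s x) w hw) ?_ ?_⟩
    · ext v
      have h1 := congrArg (fun T : H →L[ℂ] H => T v) (F.rU x q)
      simp only [ContinuousLinearMap.mul_apply] at h1
      simp [F.srU, h1]
    · simp [F.s_Ω, F.srΩ, F.rΩ]
    · rw [F.star_s]; simp [F.s_Ω, F.srΩ, F.rΩ]
  · exact fun c => ⟨algebraMap_mem _ c, fun w _ => by rw [Algebra.commutes]⟩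
  · refine fun a b ha hb => ⟨add_mem ha.1 hb.1, fun w hw => ?_⟩
    have h1 := ha.2 w hw; have h2 := hb.2 w hw
    simp only [t0, add_mul, mul_add, ContinuousLinearMap.add_apply, inner_add_right] at *
    rw [h1, h2]
  · refine fun a b ha hb => ⟨mul_mem ha.1 hb.1, fun w hw => ?_⟩
    rw [mul_assoc, ha.2 _ (mul_mem hb.1 hw), mul_assoc, hb.2 _ (mul_mem hw ha.1), mul_assoc]

theorem t0_star_mul (a : H →L[ℂ] H) : F.t0 (star a * a) = ((‖a F.Ω‖ ^ 2 : ℝ) : ℂ) := by
  rw [t0, ContinuousLinearMap.mul_apply, inner_star, inner_self_eq_norm_sq_to_K]; simp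

theorem faithful {a : H →L[ℂ] H} (ha : a ∈ F.alg) (h : a F.Ω = 0) : a = 0 := by
  have h0 : star a F.Ω = 0 := by
    have h1 := F.t0_comm _ (star_mem ha) _ ha
    have h2 := F.t0_star_mul (star a)
    rw [star_star, ← h1, F.t0_star_mul, h] at h2
    have : ‖star a F.Ω‖ ^ 2 = 0 := by simpa using (Complex.ofReal_inj.1 h2).symm
    simpa using this
  have h1 : ∀ b ∈ F.alg, a (b F.Ω) = 0 := by
    intro b hb
    have h2 := F.t0_star_mul (a * b)
    rw [F.t0_comm _ (star_mem (mul_mem ha hb)) _ (mul_mem ha hb), star_mul, t0] at h2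
    simp only [ContinuousLinearMap.mul_apply, h0, map_zero, inner_zero_right] at h2
    have : ‖a (b F.Ω)‖ ^ 2 = 0 := by exact_mod_cast h2.symm
    simpa using this
  let K0 : Submodule ℂ H := (Subalgebra.toSubmodule F.alg.toSubalgebra).map
    (ContinuousLinearMap.apply ℂ H F.Ω).toLinearMap
  have inv : ∀ g ∈ F.alg, ∀ v ∈ K0.topologicalClosure, g v ∈ K0.topologicalClosure := by
    intro g hg v hv
    refine map_mem_closure (f := g) g.continuous hv ?_
    rintro _ ⟨b, hb, rfl⟩
    exact ⟨g * b, F.alg.mul_mem hg hb, rfl⟩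
  have := F.cyc K0.topologicalClosure K0.isClosed_topologicalClosure
    (K0.le_topologicalClosure ⟨1, one_mem F.alg, rfl⟩) (fun p => inv _ (F.U_mem p))
    (fun x => inv _ (F.s_mem x))
  ext v
  have hv : v ∈ K0.topologicalClosure := this ▸ Submodule.mem_top
  refine closure_minimal (t := {v | a v = 0}) ?_ (isClosed_eq a.continuous continuous_const) hv
  rintro _ ⟨b, hb, rfl⟩
  exact h1 b hb

noncomputable def τ : F.alg →ₗ[ℂ] ℂ where
  toFun a := F.t0 a
  map_add' a b := by simp [t0, inner_add_right]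
  map_smul' c a := by simp [t0, inner_smul_right]

theorem τ_apply (a : F.alg) : F.τ a = F.t0 a := rfl

theorem t0_one : F.t0 1 = 1 := F.inner_Ω

theorem isTrace : IsFaithfulTracialState F.τ := by
  refine ⟨F.t0_one, fun a => ?_, fun a h => ?_, fun a b => F.t0_comm _ a.2 _ b.2⟩
  · have : F.τ (star a * a) = _ := F.t0_star_mul a
    rw [this]; exact ⟨Complex.ofReal_im _, by rw [Complex.ofReal_re]; positivity⟩
  · have : F.τ (star a * a) = _ := F.t0_star_mul a
    rw [this] at h
    have h2 : ‖(a : H →L[ℂ] H) F.Ω‖ ^ 2 = 0 := by exact_mod_cast h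
    exact Subtype.ext (F.faithful a.2 (by simpa using h2))

theorem comm_list {α : Type} [DecidableEq α] (ρ : H →L[ℂ] H) (hρ : ρ F.Ω = 0)
    (a : α → H →L[ℂ] H) (x : α) (σ : ℂ)
    (h : ∀ i v, ρ (a i v) = a i (ρ v) + if i = x then (σ * ⟪F.Ω, v⟫_ℂ) • F.Ω else 0) (Q : List α) :
    ρ ((Q.map a).prod F.Ω) =
      ((cuts x Q).map fun c => (σ * F.t0 (c.2.map a).prod) • (c.1.map a).prod F.Ω).sum := by
  induction Q with
  | nil => simpa [cuts] using hρ
  | cons y Q ih =>
    rw [List.map_cons, List.prod_cons, ContinuousLinearMap.mul_apply, h, ih, cuts, List.map_append,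
      List.sum_append, List.map_map, add_comm, map_list_sum, List.map_map]
    congr 1
    · split_ifs <;> simp [t0]
    · congr 2; funext c; simp

theorem sd_list {α : Type} [DecidableEq α] (ρ : H →L[ℂ] H) (hρ : ρ F.Ω = 0)
    (a : α → H →L[ℂ] H) (x : α) (σ : ℂ)
    (h : ∀ i v, ρ (a i v) = a i (ρ v) + if i = x then (σ * ⟪F.Ω, v⟫_ℂ) • F.Ω else 0) (Q : List α) :
    ⟪star ρ F.Ω, (Q.map a).prod F.Ω⟫_ℂ =
      σ * ((cuts x Q).map fun c => F.t0 (c.1.map a).prod * F.t0 (c.2.map a).prod).sum := by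
  rw [inner_star', F.comm_list ρ hρ a x σ h, ← innerSL_apply_apply ℂ, map_list_sum, List.map_map,
    ← List.sum_map_mul_left]
  congr 2; funext c
  simp only [Function.comp, innerSL_apply_apply, inner_smul_right, t0]; ring

theorem moment_succ (x : Λ) (k : ℕ) : F.t0 (F.s x ^ (k + 1)) =
    ∑ j ∈ Finset.range k, F.t0 (F.s x ^ j) * F.t0 (F.s x ^ (k - (j + 1))) := by
  have := F.sd_list (star (F.r x)) (F.srΩ x) (fun _ : Unit => F.s x) () 1
    (fun _ v => by simp [F.srs]) (List.replicate k ())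
  rw [star_star, F.rΩ, ← F.s_Ω, sum_cuts, one_mul] at this
  rw [t0, pow_succ', ContinuousLinearMap.mul_apply, ← inner_star', F.star_s]
  simp only [List.map_replicate, List.prod_replicate, List.length_replicate, List.take_replicate,
    List.drop_replicate] at this
  rw [this]
  refine Finset.sum_congr rfl fun j hj => ?_
  have hj' := Finset.mem_range.1 hj
  rw [if_pos (by simp [hj']), min_eq_left hj'.le]

theorem sum_even_odd (f : ℕ → ℂ) (M : ℕ) : ∑ j ∈ Finset.range (2 * M + 1), f j =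
    ∑ i ∈ Finset.range (M + 1), f (2 * i) + ∑ i ∈ Finset.range M, f (2 * i + 1) := by
  induction M with
  | zero => simp
  | succ M ih =>
    rw [show 2 * (M + 1) + 1 = 2 * M + 1 + 1 + 1 by ring, Finset.sum_range_succ, Finset.sum_range_succ,
      ih, Finset.sum_range_succ _ (M + 1), Finset.sum_range_succ (fun i => f (2 * i + 1)) M,
      show 2 * M + 1 + 1 = 2 * (M + 1) by ring]
    ring

theorem moments (x : Λ) (k : ℕ) :
    F.t0 (F.s x ^ (2 * k)) = (catalan k : ℂ) ∧ F.t0 (F.s x ^ (2 * k + 1)) = 0 := by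
  induction k using Nat.strong_induction_on with
  | _ k ih =>
    have odd : F.t0 (F.s x ^ (2 * k + 1)) = 0 := by
      rw [moment_succ]
      refine Finset.sum_eq_zero fun j hj => ?_
      have hj' := Finset.mem_range.1 hj
      rcases Nat.even_or_odd' j with ⟨i, rfl | rfl⟩
      · rw [show 2 * k - (2 * i + 1) = 2 * (k - i - 1) + 1 by omega, (ih (k - i - 1) (by omega)).2,
          mul_zero]
      · rw [(ih i (by omega)).2, zero_mul]
    refine ⟨?_, odd⟩
    rcases k with _ | k
    · simp [F.t0_one]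
    · rw [show 2 * (k + 1) = 2 * k + 1 + 1 by ring, moment_succ, sum_even_odd, catalan_succ',
        Finset.Nat.sum_antidiagonal_eq_sum_range_succ (fun x y => catalan x * catalan y),
        Finset.sum_eq_zero (s := Finset.range k) fun i hi => by
          rw [(ih i (by have := Finset.mem_range.1 hi; omega)).2, zero_mul], add_zero]
      push_cast
      refine Finset.sum_congr rfl fun i hi => ?_
      have hi' := Finset.mem_range.1 hi
      rw [show 2 * k - 2 * i = 2 * (k - i) by omega, (ih i (by omega)).1,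
        (ih (k - i) (by omega)).1]

end Fock
end Crest.Agent.FE
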