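import Crest.Agent.FE.Alg

/-! Row 89: the bootstrap estimate (the hidden unitary does not leak). -/

set_option autoImplicit false
set_option linter.unusedSectionVars false
open scoped InnerProductSpace
open Finset

namespace Crest.Agent.FE

structure BS (n : ℕ) (H : Type) [NormedAddCommGroup H] [InnerProductSpace ℂ H]
    [CompleteSpace H] where
  Ω : H
  U : ℤ → H →L[ℂ] H
  L : Option (Fin n) → H →L[ℂ] H
  σ : Fin n → ℝ
  ε : Fin n → ℝ
  α : Fin n → ℂ
  U_zero : U 0 = 1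
  U_add : ∀ p q, U (p + q) = U p * U q
  star_U : ∀ p, star (U p) = U (-p)
  ll : ∀ x y p v, star (L x) (U p (L y v)) = if x = y ∧ p = 0 then v else 0
  lΩ : ∀ x p, star (L x) (U p Ω) = 0
  σ_pos : ∀ i, 0 < σ i

namespace BS
variable {n : ℕ} {H : Type} [NormedAddCommGroup H] [InnerProductSpace ℂ H] [CompleteSpace H]
  (B : BS n H)

noncomputable def A (x : Option (Fin n)) (p : ℤ) : H →L[ℂ] H := star (B.L x) * B.U (-p)
noncomputable def T (i : Fin n) (p : ℤ) : H →L[ℂ] H := ((B.σ i : ℂ)⁻¹) • B.A (some i) p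
noncomputable def cre (j : Fin n) : H →L[ℂ] H :=
  (B.ε j : ℂ) • (B.U j * B.L none * B.U (-j)) + (B.σ j : ℂ) • B.L (some j)
noncomputable def Z (j : Fin n) : H →L[ℂ] H :=
  B.α j • B.U 1 + (starRingEnd ℂ (B.α j)) • B.U (-1) + (B.cre j + star (B.cre j))
noncomputable def N (j : Fin n) : H →L[ℂ] H :=
  B.α j • B.U 1 + (starRingEnd ℂ (B.α j)) • B.U (-1) +
    ∑ k ∈ univ.erase j, ((B.ε j * B.ε k : ℝ) : ℂ) • (B.U (j - k) * B.T k (j - k))

noncomputable def Hs : ℕ → Submodule ℂ H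
  | 0 => ⊥
  | K + 1 => Submodule.span ℂ ({B.Ω} ∪ {v | ∃ j, ∃ w ∈ Hs K, v = B.Z j w})

theorem UU (p q : ℤ) (v : H) : B.U p (B.U q v) = B.U (p + q) v := by rw [B.U_add]; rfl

theorem σ_ne (i : Fin n) : (B.σ i : ℂ) ≠ 0 := by exact_mod_cast (B.σ_pos i).ne'

theorem A_U (x : Option (Fin n)) (p q : ℤ) (v : H) : B.A x p (B.U q v) = B.A x (p - q) v := by
  simp only [A, ContinuousLinearMap.mul_apply, UU]; congr 3; ring

theorem A_L (x y : Option (Fin n)) (p : ℤ) (v : H) :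
    B.A x p (B.L y v) = if x = y ∧ p = 0 then v else 0 := by
  simp only [A, ContinuousLinearMap.mul_apply, B.ll, neg_eq_zero]

theorem A_Ω (x : Option (Fin n)) (p : ℤ) : B.A x p B.Ω = 0 := B.lΩ x _

theorem T_U (i : Fin n) (p q : ℤ) (v : H) : B.T i p (B.U q v) = B.T i (p - q) v := by
  simp only [T, ContinuousLinearMap.smul_apply, A_U]

theorem A_cre (i j : Fin n) (p : ℤ) (w : H) :
    B.A (some i) p (B.cre j w) = if i = j ∧ p = 0 then (B.σ j : ℂ) • w else 0 := by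
  simp only [cre, ContinuousLinearMap.add_apply, ContinuousLinearMap.smul_apply,
    ContinuousLinearMap.mul_apply, map_add, map_smul, A_U, A_L]
  simp

theorem T_cre (i j : Fin n) (p : ℤ) (w : H) :
    B.T i p (B.cre j w) = if i = j ∧ p = 0 then w else 0 := by
  simp only [T, ContinuousLinearMap.smul_apply, A_cre]
  split_ifs with h
  · rw [h.1, smul_smul, inv_mul_cancel₀ (B.σ_ne j), one_smul]
  · simp

theorem star_cre (j : Fin n) (w : H) : star (B.cre j) w =
    (B.ε j : ℂ) • B.U j (B.A none j w) + ((B.σ j : ℂ) ^ 2) • B.T j 0 w := by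
  simp only [cre, star_add, star_smul, star_mul, B.star_U, neg_neg, T, A, neg_zero, B.U_zero, mul_one,
    ContinuousLinearMap.add_apply, ContinuousLinearMap.smul_apply, ContinuousLinearMap.mul_apply,
    Complex.star_def, Complex.conj_ofReal, smul_smul]
  congr 2
  field_simp [B.σ_ne j]

theorem Hs_mono : Monotone B.Hs := by
  refine monotone_nat_of_le_succ fun K => ?_
  induction K with
  | zero => exact bot_le
  | succ K ih =>
    refine Submodule.span_mono (Set.union_subset_union_right _ ?_)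
    rintro _ ⟨j, w, hw, rfl⟩
    exact ⟨j, w, ih hw, rfl⟩

noncomputable def D (p : ℤ) : H →L[ℂ] H :=
  B.A none p - ∑ k, (B.ε k : ℂ) • (B.U (-k) * B.T k (p - k))

theorem D_U (p q : ℤ) (v : H) : B.D p (B.U q v) = B.D (p - q) v := by
  simp only [D, ContinuousLinearMap.sub_apply, ContinuousLinearMap.sum_apply,
    ContinuousLinearMap.smul_apply, ContinuousLinearMap.mul_apply, A_U, T_U, sub_right_comm p]

theorem D_cre (p : ℤ) (j : Fin n) (w : H) : B.D p (B.cre j w) = 0 := by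
  have h1 : B.A none p (B.cre j w) = if p - j = 0 then (B.ε j : ℂ) • B.U (-j) w else 0 := by
    simp only [cre, ContinuousLinearMap.add_apply, ContinuousLinearMap.smul_apply,
      ContinuousLinearMap.mul_apply, map_add, map_smul, A_U, A_L]
    simp
  simp only [D, ContinuousLinearMap.sub_apply, ContinuousLinearMap.sum_apply,
    ContinuousLinearMap.smul_apply, ContinuousLinearMap.mul_apply, T_cre, h1]
  rw [sum_eq_single j (fun k _ hk => by simp [hk]) (by simp)]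
  split_ifs with h h' h' <;> simp_all

noncomputable def G (K : ℕ) : Submodule ℂ H :=
  (⨅ i, ⨅ p, (B.Hs (K - 1)).comap (B.T i p).toLinearMap) ⊓ ⨅ p, (B.D p).ker

theorem mem_G {K : ℕ} {v : H} :
    v ∈ B.G K ↔ (∀ i p, B.T i p v ∈ B.Hs (K - 1)) ∧ ∀ p, B.D p v = 0 := by
  simp [G, Submodule.mem_iInf]

theorem U_G {K : ℕ} {v : H} (hv : v ∈ B.G K) (q : ℤ) : B.U q v ∈ B.G K := by
  rw [mem_G] at hv ⊢
  exact ⟨fun i p => by rw [T_U]; exact hv.1 _ _, fun p => by rw [D_U]; exact hv.2 _⟩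

theorem G_mono {K : ℕ} {v : H} (hv : v ∈ B.G K) : v ∈ B.G (K + 1) := by
  rw [mem_G] at hv ⊢
  exact ⟨fun i p => B.Hs_mono (by omega) (hv.1 i p), hv.2⟩

theorem star_cre_G {K : ℕ} {w : H} (hw : w ∈ B.G K) (j : Fin n) : star (B.cre j) w =
    ((B.ε j ^ 2 + B.σ j ^ 2 : ℝ) : ℂ) • B.T j 0 w +
      ∑ k ∈ univ.erase j, ((B.ε j * B.ε k : ℝ) : ℂ) • B.U (j - k) (B.T k (j - k) w) := by
  have := (B.mem_G.1 hw).2 j
  simp only [D, ContinuousLinearMap.sub_apply, ContinuousLinearMap.sum_apply,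
    ContinuousLinearMap.smul_apply, ContinuousLinearMap.mul_apply, sub_eq_zero] at this
  rw [star_cre, this, map_sum, smul_sum, ← add_sum_erase _ _ (mem_univ j)]
  simp only [map_smul, UU, smul_smul, add_neg_cancel, sub_self, B.U_zero, ContinuousLinearMap.one_apply,
    ← sub_eq_add_neg]
  push_cast
  rw [add_smul, sq (B.ε j : ℂ)]; abel

theorem Z_G {K : ℕ} {w : H} (hw : w ∈ B.G K) (j : Fin n) : B.Z j w =
    B.cre j w + ((B.ε j ^ 2 + B.σ j ^ 2 : ℝ) : ℂ) • B.T j 0 w + B.N j w := by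
  simp only [Z, N, ContinuousLinearMap.add_apply, B.star_cre_G hw, ContinuousLinearMap.sum_apply,
    ContinuousLinearMap.smul_apply, ContinuousLinearMap.mul_apply]
  abel

theorem Hs_le_G (K : ℕ) : B.Hs K ≤ B.G K := by
  induction K with
  | zero => exact bot_le
  | succ K ih =>
    refine Submodule.span_le.2 ?_
    rintro _ (rfl | ⟨j, w, hw, rfl⟩)
    · refine B.mem_G.2 ⟨fun i p => ?_, fun p => ?_⟩
      · simp [T, A_Ω]
      · simp [D, T, A_Ω, ContinuousLinearMap.sum_apply]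
    · have hG := ih hw
      have hT : ∀ i p, B.T i p w ∈ B.G (K + 1) := fun i p =>
        B.G_mono (ih (B.Hs_mono (Nat.sub_le K 1) ((B.mem_G.1 hG).1 i p)))
      have hw' := B.G_mono hG
      rw [SetLike.mem_coe, B.Z_G hG]
      refine add_mem (add_mem (B.mem_G.2 ⟨fun i p => ?_, fun p => B.D_cre p j w⟩)
        (Submodule.smul_mem _ _ (hT _ _))) ?_
      · rw [T_cre]; split_ifs
        · exact hw
        · exact zero_mem _
      · simp only [N, ContinuousLinearMap.add_apply, ContinuousLinearMap.sum_apply,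
          ContinuousLinearMap.smul_apply, ContinuousLinearMap.mul_apply]
        exact add_mem (add_mem (Submodule.smul_mem _ _ (B.U_G hw' _))
          (Submodule.smul_mem _ _ (B.U_G hw' _)))
          (Submodule.sum_mem _ fun k _ => Submodule.smul_mem _ _ (B.U_G (hT _ _) _))

theorem T_mem {K : ℕ} {v : H} (hv : v ∈ B.Hs K) (i : Fin n) (p : ℤ) : B.T i p v ∈ B.Hs K :=
  B.Hs_mono (Nat.sub_le K 1) ((B.mem_G.1 (B.Hs_le_G K hv)).1 i p)

theorem decomp (K : ℕ) : ∀ v ∈ B.Hs K, ∃ y : Fin n → H, (∀ j, y j ∈ B.Hs (K - 1)) ∧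
    ∀ i p, B.A (some i) p v =
      B.A (some i) p (∑ j, (B.σ j : ℂ) • B.L (some j) (y j) + ∑ j, B.N j (y j)) := by
  induction K with
  | zero =>
    intro v hv
    obtain rfl : v = 0 := hv
    exact ⟨0, fun _ => zero_mem _, by simp⟩
  | succ K ih =>
    intro v hv
    induction hv using Submodule.span_induction with
    | mem v hv =>
      rcases hv with rfl | ⟨l, w, hw, rfl⟩
      · exact ⟨0, fun _ => zero_mem _, by simp [A_Ω]⟩
      · obtain ⟨y, hy, H⟩ := ih _ (B.T_mem hw l 0)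
        refine ⟨fun j => (if j = l then w else 0) + ((B.ε l ^ 2 + B.σ l ^ 2 : ℝ) : ℂ) • y j,
          fun j => add_mem (by split_ifs; exacts [hw, zero_mem _])
            (Submodule.smul_mem _ _ (B.Hs_mono (Nat.sub_le K 1) (hy j))), fun i p => ?_⟩
        have e1 : ∑ j, (B.σ j : ℂ) • B.L (some j) (if j = l then w else 0) = (B.σ l : ℂ) • B.L (some l) w := by
          rw [sum_eq_single l (fun k _ hk => by simp [hk]) (by simp)]; simp
        have e2 : ∑ j, B.N j (if j = l then w else 0) = B.N l w := by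
          rw [sum_eq_single l (fun k _ hk => by simp [hk]) (by simp)]; simp
        have e3 : B.A (some i) p (B.cre l w) = B.A (some i) p ((B.σ l : ℂ) • B.L (some l) w) := by
          rw [A_cre, map_smul, A_L]; simp
        rw [B.Z_G (B.Hs_le_G K hw), map_add, map_add, map_smul, H, e3]
        simp only [map_add, map_smul, smul_add, sum_add_distrib, e1, e2, smul_comm (B.σ _ : ℂ),
          ← smul_sum]
        abel
    | zero => exact ⟨0, fun _ => zero_mem _, by simp⟩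
    | add v w _ _ hv hw =>
      obtain ⟨y, hy, H⟩ := hv; obtain ⟨y', hy', H'⟩ := hw
      refine ⟨y + y', fun j => add_mem (hy j) (hy' j), fun i p => ?_⟩
      rw [map_add, H, H']
      simp only [Pi.add_apply, map_add, smul_add, sum_add_distrib]; abel
    | smul c v _ hv =>
      obtain ⟨y, hy, H⟩ := hv
      refine ⟨c • y, fun j => Submodule.smul_mem _ _ (hy j), fun i p => ?_⟩
      rw [map_smul, H]
      simp only [Pi.smul_apply, map_add, map_smul, smul_add, smul_comm (B.σ _ : ℂ) c, ← smul_sum]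

theorem inner_UL (p q : ℤ) (i k : Option (Fin n)) (v w : H) :
    ⟪B.U p (B.L i v), B.U q (B.L k w)⟫_ℂ = if i = k ∧ p = q then ⟪v, w⟫_ℂ else 0 := by
  rw [← Fock.inner_star (B.U p), ← Fock.inner_star (B.L i), B.star_U, UU, B.ll]
  by_cases h : i = k ∧ p = q
  · rw [if_pos h, if_pos ⟨h.1, by omega⟩]
  · rw [if_neg h, if_neg (fun h' => h ⟨h'.1, by omega⟩), inner_zero_right]

theorem norm_U (p : ℤ) (v : H) : ‖B.U p v‖ = ‖v‖ := by
  have : ⟪B.U p v, B.U p v⟫_ℂ = ⟪v, v⟫_ℂ := by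
    rw [← Fock.inner_star, B.star_U, B.UU, neg_add_cancel, B.U_zero]; rfl
  rw [inner_self_eq_norm_sq_to_K, inner_self_eq_norm_sq_to_K] at this
  exact (pow_left_inj₀ (norm_nonneg _) (norm_nonneg _) two_ne_zero).1 (by exact_mod_cast this)

theorem norm_sum (F : Finset ℤ) (x : ℤ → Fin n → H) :
    ‖∑ p ∈ F, ∑ i, B.U p (B.L (some i) (x p i))‖ ^ 2 = ∑ p ∈ F, ∑ i, ‖x p i‖ ^ 2 := by
  have : ⟪∑ p ∈ F, ∑ i, B.U p (B.L (some i) (x p i)), ∑ p ∈ F, ∑ i, B.U p (B.L (some i) (x p i))⟫_ℂ =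
      ∑ p ∈ F, ∑ i, ⟪x p i, x p i⟫_ℂ := by
    simp only [sum_inner, inner_sum, inner_UL]
    refine sum_congr rfl fun p hp => sum_congr rfl fun i _ => ?_
    rw [sum_eq_single p (fun q _ hq => by simp [hq]) (fun h => absurd hp h),
      sum_eq_single i (fun q _ hq => by simp [hq]) (by simp)]
    simp
  simp only [inner_self_eq_norm_sq_to_K] at this
  exact_mod_cast this

noncomputable def Pj (F : Finset ℤ) : H →L[ℂ] H := ∑ p ∈ F, ∑ i, B.U p * B.L (some i) * B.A (some i) p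

theorem Pj_apply (F : Finset ℤ) (v : H) :
    B.Pj F v = ∑ p ∈ F, ∑ i, B.U p (B.L (some i) (B.A (some i) p v)) := by
  simp [Pj, ContinuousLinearMap.sum_apply]

theorem norm_Pj (F : Finset ℤ) (v : H) : ‖B.Pj F v‖ ^ 2 = ∑ p ∈ F, ∑ i, ‖B.A (some i) p v‖ ^ 2 := by
  rw [Pj_apply, norm_sum]

theorem norm_Pj_le (F : Finset ℤ) (v : H) : ‖B.Pj F v‖ ≤ ‖v‖ := by
  have h1 : ⟪B.Pj F v, v⟫_ℂ = ((‖B.Pj F v‖ ^ 2 : ℝ) : ℂ) := by
    rw [norm_Pj, Pj_apply]
    simp only [sum_inner]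
    push_cast
    refine sum_congr rfl fun p _ => sum_congr rfl fun i _ => ?_
    rw [← Fock.inner_star (B.U p), ← Fock.inner_star (B.L _), B.star_U]
    exact inner_self_eq_norm_sq_to_K _
  have h2 := norm_inner_le_norm (𝕜 := ℂ) (B.Pj F v) v
  rw [h1, Complex.norm_real, Real.norm_of_nonneg (by positivity), sq] at h2
  rcases (norm_nonneg (B.Pj F v)).eq_or_lt with h | h
  · rw [← h]; exact norm_nonneg _
  · exact le_of_mul_le_mul_left h2 h

theorem Pj_L (F : Finset ℤ) (j : Fin n) (y : H) :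
    B.Pj F (B.L (some j) y) = if 0 ∈ F then B.L (some j) y else 0 := by
  rw [Pj_apply]
  simp only [A_L, Option.some.injEq]
  split_ifs with h
  · rw [sum_eq_single 0 (fun q _ hq => by simp [hq]) (fun h' => absurd h h'),
      sum_eq_single j (fun q _ hq => by simp [hq]) (by simp)]
    simp [B.U_zero]
  · exact sum_eq_zero fun p hp => sum_eq_zero fun i _ => by
      rw [if_neg (fun h' : i = j ∧ p = 0 => h (h'.2 ▸ hp))]; simp

theorem Pj_U (F : Finset ℤ) (q : ℤ) (z : H) : ∃ F' : Finset ℤ, 0 ∉ F' ∧ B.Pj F (B.U q z) =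
    (if q ∈ F then ∑ i, B.U q (B.L (some i) (B.A (some i) 0 z)) else 0) + B.U q (B.Pj F' z) := by
  refine ⟨(F.erase q).map (Equiv.subRight q).toEmbedding, by simp [sub_eq_zero], ?_⟩
  have e : B.U q (B.Pj ((F.erase q).map (Equiv.subRight q).toEmbedding) z) =
      ∑ p ∈ F.erase q, ∑ i, B.U p (B.L (some i) (B.A (some i) (p - q) z)) := by
    rw [Pj_apply, sum_map]; simp [map_sum, UU]
  rw [e, Pj_apply]
  simp only [A_U]
  split_ifs with h
  · rw [← add_sum_erase _ _ h, sub_self]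
  · rw [erase_eq_of_notMem h, zero_add]

noncomputable def zq (y : Fin n → H) (q : ℤ) : H :=
  ((if q = 1 then ∑ j, B.α j • y j else 0) + (if q = -1 then ∑ j, (starRingEnd ℂ (B.α j)) • y j else 0)) +
    ∑ j : Fin n, ∑ k : Fin n, if (j : ℤ) - k = q then ((B.ε j * B.ε k : ℝ) : ℂ) • B.T k q (y j) else 0

noncomputable def QQ (n : ℕ) : Finset ℤ := (Icc (-(n : ℤ)) n).erase 0

theorem sum_N (hn : 1 ≤ n) (y : Fin n → H) :
    ∑ j, B.N j (y j) = ∑ q ∈ QQ n, B.U q (B.zq y q) := by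
  have h1 : (1 : ℤ) ∈ QQ n := by simp [QQ]; omega
  have h2 : (-1 : ℤ) ∈ QQ n := by simp [QQ]; omega
  simp only [N, zq, ContinuousLinearMap.add_apply, ContinuousLinearMap.sum_apply,
    ContinuousLinearMap.smul_apply, ContinuousLinearMap.mul_apply, map_add, sum_add_distrib]
  congr 1
  · congr 1
    · rw [sum_eq_single 1 (fun q _ hq => by simp [hq]) (fun h => absurd h1 h)]; simp [map_sum]
    · rw [sum_eq_single (-1) (fun q _ hq => by simp [hq]) (fun h => absurd h2 h)]; simp [map_sum]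
  · simp only [map_sum]
    rw [sum_comm]
    refine sum_congr rfl fun j _ => ?_
    rw [sum_comm, ← add_sum_erase _ _ (mem_univ j), sum_eq_zero (s := QQ n), zero_add]
    · refine sum_congr rfl fun k hk => ?_
      have hk' : (j : ℤ) - k ≠ 0 := fun h => (mem_erase.1 hk).1 (Fin.ext (by omega))
      rw [sum_eq_single ((j : ℤ) - k) (fun q _ hq => by simp [hq.symm])
        (fun h => absurd (by simp only [QQ, mem_erase, mem_Icc]; exact ⟨hk', by omega, by omega⟩) h)]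
      simp
    · intro q hq
      rw [if_neg (by have := (mem_erase.1 hq).1; omega), map_zero]

theorem zq_mem {K : ℕ} {y : Fin n → H} (hy : ∀ j, y j ∈ B.Hs K) (q : ℤ) : B.zq y q ∈ B.Hs K := by
  refine add_mem (add_mem ?_ ?_) (Submodule.sum_mem _ fun j _ => Submodule.sum_mem _ fun k _ => ?_)
  all_goals split_ifs
  exacts [Submodule.sum_mem _ fun j _ => Submodule.smul_mem _ _ (hy j), zero_mem _,
    Submodule.sum_mem _ fun j _ => Submodule.smul_mem _ _ (hy j), zero_mem _,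
    Submodule.smul_mem _ _ (B.T_mem (hy j) _ _), zero_mem _]

theorem norm_T_le (hσ : ∀ i, 1 ≤ B.σ i) (k : Fin n) (q : ℤ) (y : H) :
    ‖B.T k q y‖ ≤ ‖B.A (some k) q y‖ := by
  rw [T, ContinuousLinearMap.smul_apply, norm_smul, norm_inv, Complex.norm_real,
    Real.norm_of_nonneg (B.σ_pos k).le]
  exact mul_le_of_le_one_left (norm_nonneg _) (inv_le_one_of_one_le₀ (hσ k))

theorem zq_bound {γ e u : ℝ} (hσ : ∀ i, 1 ≤ B.σ i) (hε : ∀ j k, |B.ε j * B.ε k| ≤ γ)
    (hα : ∑ j, ‖B.α j‖ ^ 2 ≤ e ^ 2) (y : Fin n → H) (hy : ∀ j, ‖B.Pj (QQ n) (y j)‖ ≤ u * ‖y j‖) :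
    ∑ q ∈ QQ n, ‖B.zq y q‖ ^ 2 ≤ (4 * e ^ 2 + 2 * (n * γ ^ 2) * u ^ 2) * ∑ j, ‖y j‖ ^ 2 := by
  set Y := ∑ j, ‖y j‖ ^ 2
  have hY : 0 ≤ Y := sum_nonneg fun j _ => by positivity
  have d1 : ∀ a : Fin n → ℂ, (∀ j, ‖a j‖ = ‖B.α j‖) → ‖∑ j, a j • y j‖ ^ 2 ≤ e ^ 2 * Y := by
    intro a ha
    calc _ ≤ (∑ j, ‖B.α j‖ * ‖y j‖) ^ 2 := pow_le_pow_left₀ (norm_nonneg _)
          ((norm_sum_le _ _).trans (le_of_eq (sum_congr rfl fun j _ => by rw [norm_smul, ha]))) 2
      _ ≤ (∑ j, ‖B.α j‖ ^ 2) * Y := sum_mul_sq_le_sq_mul_sq _ _ _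
      _ ≤ _ := mul_le_mul_of_nonneg_right hα hY
  have d2 : ∑ q ∈ QQ n, ‖(if q = 1 then ∑ j, B.α j • y j else 0) +
      (if q = -1 then ∑ j, (starRingEnd ℂ (B.α j)) • y j else 0)‖ ^ 2 ≤ 2 * (e ^ 2 * Y) := by
    have he : 0 ≤ e ^ 2 * Y := by positivity
    calc _ ≤ ∑ q ∈ QQ n, ((if q = 1 then e ^ 2 * Y else 0) + (if q = -1 then e ^ 2 * Y else 0)) := by
          refine sum_le_sum fun q _ => ?_
          by_cases h1 : q = 1
          · subst h1; simpa using d1 _ fun _ => rfl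
          · by_cases h2 : q = -1
            · subst h2; simpa using d1 (fun j => starRingEnd ℂ (B.α j)) fun _ => by simp
            · simp [h1, h2]
      _ ≤ _ := by
          rw [sum_add_distrib, sum_ite_eq', sum_ite_eq']
          split_ifs <;> linarith
  have d3 : ∀ q (j : Fin n), ‖∑ k : Fin n, if (j : ℤ) - k = q then ((B.ε j * B.ε k : ℝ) : ℂ) • B.T k q (y j) else 0‖ ^ 2 ≤
      γ ^ 2 * ∑ i, ‖B.A (some i) q (y j)‖ ^ 2 := by
    intro q j
    by_cases h : ∃ k : Fin n, (j : ℤ) - k = q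
    · obtain ⟨k, hk⟩ := h
      rw [sum_eq_single k (fun k' _ hk' => if_neg fun h => hk' (Fin.ext (by omega))) (by simp),
        if_pos hk, norm_smul, Complex.norm_real, mul_pow]
      exact mul_le_mul (pow_le_pow_left₀ (norm_nonneg _) (hε j k) 2)
        ((pow_le_pow_left₀ (norm_nonneg _) (B.norm_T_le hσ _ _ _) 2).trans
          (single_le_sum (f := fun i => ‖B.A (some i) q (y j)‖ ^ 2) (fun _ _ => by positivity) (mem_univ k)))
        (by positivity) (by positivity)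
    · rw [sum_eq_zero fun k _ => if_neg fun h' => h ⟨k, h'⟩]
      simp only [norm_zero, ne_eq, OfNat.ofNat_ne_zero, not_false_eq_true, zero_pow]
      positivity
  have d4 : ∑ q ∈ QQ n, ‖∑ j : Fin n, ∑ k : Fin n, if (j : ℤ) - k = q then
      ((B.ε j * B.ε k : ℝ) : ℂ) • B.T k q (y j) else 0‖ ^ 2 ≤ n * γ ^ 2 * u ^ 2 * Y := by
    calc _ ≤ ∑ q ∈ QQ n, n * ∑ j, γ ^ 2 * ∑ i, ‖B.A (some i) q (y j)‖ ^ 2 := by
          refine sum_le_sum fun q _ => ?_
          refine (pow_le_pow_left₀ (norm_nonneg _) (norm_sum_le _ _) 2).trans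
            (sq_sum_le_card_mul_sum_sq.trans ?_)
          rw [card_univ, Fintype.card_fin]
          exact mul_le_mul_of_nonneg_left (sum_le_sum fun j _ => d3 q j) (by positivity)
      _ = n * γ ^ 2 * ∑ j, ‖B.Pj (QQ n) (y j)‖ ^ 2 := by
          simp only [norm_Pj, ← mul_sum]; rw [sum_comm, mul_assoc]
      _ ≤ n * γ ^ 2 * ∑ j, (u * ‖y j‖) ^ 2 := by gcongr with j; exact hy j
      _ = _ := by simp only [mul_pow, ← mul_sum, Y]; ring
  calc _ ≤ ∑ q ∈ QQ n, (2 * ‖(if q = 1 then ∑ j, B.α j • y j else 0) +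
      (if q = -1 then ∑ j, (starRingEnd ℂ (B.α j)) • y j else 0)‖ ^ 2 + 2 * ‖∑ j : Fin n, ∑ k : Fin n,
        if (j : ℤ) - k = q then ((B.ε j * B.ε k : ℝ) : ℂ) • B.T k q (y j) else 0‖ ^ 2) := by
        refine sum_le_sum fun q _ => (pow_le_pow_left₀ (norm_nonneg _) (norm_add_le _ _) 2).trans ?_
        nlinarith [sq_nonneg (‖(if q = 1 then ∑ j, B.α j • y j else 0) +
          (if q = -1 then ∑ j, (starRingEnd ℂ (B.α j)) • y j else 0)‖ - ‖∑ j : Fin n, ∑ k : Fin n,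
          if (j : ℤ) - k = q then ((B.ε j * B.ε k : ℝ) : ℂ) • B.T k q (y j) else 0‖)]
    _ ≤ _ := by rw [sum_add_distrib, ← mul_sum, ← mul_sum]; nlinarith

theorem card_QQ : ((QQ n).card : ℝ) ≤ 2 * n + 1 := by
  have : (QQ n).card ≤ 2 * n + 1 := card_erase_le.trans (by simp; omega)
  exact_mod_cast this

theorem boot {γ e : ℝ} (hn : 1 ≤ n) (hσ : ∀ i, 1 ≤ B.σ i) (hε : ∀ j k, |B.ε j * B.ε k| ≤ γ)
    (hα : ∑ j, ‖B.α j‖ ^ 2 ≤ e ^ 2) (he : 0 ≤ e) (hγ : n * γ ^ 2 ≤ 1 / 64)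
    (hs : 8 * e * (2 * n + 1) ≤ 1 / 4) (K : ℕ) :
    ∀ v ∈ B.Hs K, ∀ F : Finset ℤ, 0 ∉ F → ‖B.Pj F v‖ ≤ 8 * e * ‖v‖ := by
  induction K with
  | zero => intro v hv F _; obtain rfl : v = 0 := hv; simp
  | succ K ih =>
    intro v hv F hF
    obtain ⟨y, hy, Hd⟩ := B.decomp _ v hv
    have hz := B.zq_mem hy
    have b1 := B.zq_bound hσ hε hα y fun j => ih _ (hy j) _ (by simp [QQ])
    set Y := √(∑ j, ‖y j‖ ^ 2)
    have hY : 0 ≤ Y := Real.sqrt_nonneg _
    have hY2 : Y ^ 2 = ∑ j, ‖y j‖ ^ 2 := Real.sq_sqrt (sum_nonneg fun j _ => by positivity)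
    have b2 : ∑ q ∈ QQ n, ‖B.zq y q‖ ^ 2 ≤ (5 / 2 * e * Y) ^ 2 := by
      refine b1.trans ?_
      rw [← hY2]
      have : 2 * (n * γ ^ 2) * (8 * e) ^ 2 ≤ 2 * e ^ 2 := by nlinarith [sq_nonneg e]
      nlinarith [sq_nonneg (e * Y), sq_nonneg Y]
    have b3 : ∀ q ∈ QQ n, ‖B.zq y q‖ ≤ 5 / 2 * e * Y := fun q hq =>
      (pow_le_pow_iff_left₀ (norm_nonneg _) (by positivity) two_ne_zero).1
        ((single_le_sum (f := fun q => ‖B.zq y q‖ ^ 2) (fun _ _ => by positivity) hq).trans b2)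
    have key : ∀ F : Finset ℤ, ∃ w : H, ‖w‖ ≤ 1 / 4 * (5 / 2 * e * Y) ∧ B.Pj F v =
        (if 0 ∈ F then ∑ j, (B.σ j : ℂ) • B.L (some j) (y j) else 0) +
        ∑ q ∈ (QQ n).filter (· ∈ F), ∑ i, B.U q (B.L (some i) (B.A (some i) 0 (B.zq y q))) + w := by
      intro F
      choose F' hF' eF using fun q => B.Pj_U F q (B.zq y q)
      refine ⟨∑ q ∈ QQ n, B.U q (B.Pj (F' q) (B.zq y q)), ?_, ?_⟩
      · refine (norm_sum_le _ _).trans ((sum_le_card_nsmul _ _ (8 * e * (5 / 2 * e * Y)) fun q hq => ?_).trans ?_)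
        · rw [norm_U]; exact (ih _ (hz q) _ (hF' q)).trans (by gcongr; exact b3 q hq)
        · rw [nsmul_eq_mul, ← mul_assoc]
          refine mul_le_mul_of_nonneg_right ?_ (by positivity)
          nlinarith [card_QQ (n := n)]
      · have : B.Pj F v = B.Pj F (∑ j, (B.σ j : ℂ) • B.L (some j) (y j) + ∑ j, B.N j (y j)) := by
          simp only [Pj_apply, Hd]
        rw [this, B.sum_N hn, map_add, map_sum, map_sum, sum_filter]
        simp only [eF, sum_add_distrib, map_smul, Pj_L, add_assoc]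
        congr 1
        split_ifs <;> simp
    have hYv : Y ≤ 2 * ‖v‖ := by
      obtain ⟨w, hw, ew⟩ := key {0}
      rw [if_pos (by simp), filter_false_of_mem (fun q hq => by simpa using (mem_erase.1 hq).1),
        sum_empty, add_zero] at ew
      have c1 : Y ≤ ‖∑ j, (B.σ j : ℂ) • B.L (some j) (y j)‖ := by
        refine Real.sqrt_le_iff.2 ⟨norm_nonneg _, ?_⟩
        have := B.norm_sum {0} fun _ j => (B.σ j : ℂ) • y j
        simp only [sum_singleton, B.U_zero, ContinuousLinearMap.one_apply, map_smul] at this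
        rw [this]
        refine sum_le_sum fun j _ => pow_le_pow_left₀ (norm_nonneg _) ?_ 2
        rw [norm_smul, Complex.norm_real, Real.norm_of_nonneg (B.σ_pos j).le]
        exact le_mul_of_one_le_left (norm_nonneg _) (hσ j)
      have c2 := norm_sub_le (B.Pj {0} v) w
      rw [ew, add_sub_cancel_right, ← ew] at c2
      have c3 := B.norm_Pj_le {0} v
      have : (1 : ℝ) ≤ n := by exact_mod_cast hn
      have : e ≤ 1 / 2 := by nlinarith
      nlinarith
    obtain ⟨w, hw, ew⟩ := key F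
    rw [if_neg hF, zero_add] at ew
    have c4 : ‖∑ q ∈ (QQ n).filter (· ∈ F), ∑ i, B.U q (B.L (some i) (B.A (some i) 0 (B.zq y q)))‖ ≤
        5 / 2 * e * Y := by
      refine (pow_le_pow_iff_left₀ (norm_nonneg _) (by positivity) two_ne_zero).1 (le_trans ?_ b2)
      rw [B.norm_sum _ fun q i => B.A (some i) 0 (B.zq y q)]
      refine (sum_le_sum fun q _ => ?_).trans
        (sum_le_sum_of_subset_of_nonneg (filter_subset _ _) fun _ _ _ => by positivity)
      have := B.norm_Pj {0} (B.zq y q)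
      rw [sum_singleton] at this
      rw [← this]
      exact pow_le_pow_left₀ (norm_nonneg _) (B.norm_Pj_le _ _) 2
    rw [ew]
    refine (norm_add_le _ _).trans ?_
    nlinarith

theorem norm_star_cre (j : Fin n) (v : H) :
    ‖star (B.cre j) v‖ ≤ √(B.ε j ^ 2 + B.σ j ^ 2) * ‖v‖ := by
  refine ((star (B.cre j)).le_opNorm v).trans (mul_le_mul_of_nonneg_right ?_ (norm_nonneg _))
  rw [norm_star]
  refine ContinuousLinearMap.opNorm_le_bound _ (Real.sqrt_nonneg _) fun w => ?_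
  have h0 := B.inner_UL 0 0 (some j) (some j) w w
  have h1 := B.inner_UL j 0 none (some j) (B.U (-j) w) w
  have h2 := B.inner_UL j j none none (B.U (-j) w) (B.U (-j) w)
  simp only [B.U_zero, ContinuousLinearMap.one_apply, and_self, if_true, reduceCtorEq, false_and,
    if_false, inner_self_eq_norm_sq_to_K] at h0 h1 h2
  have h0' : ‖B.L (some j) w‖ ^ 2 = ‖w‖ ^ 2 := by exact_mod_cast h0
  have h2' : ‖B.U j (B.L none (B.U (-j) w))‖ ^ 2 = ‖B.U (-j) w‖ ^ 2 := by exact_mod_cast h2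
  rw [B.norm_U (-j)] at h2'
  refine (pow_le_pow_iff_left₀ (norm_nonneg _) (by positivity) two_ne_zero).1 (le_of_eq ?_)
  rw [mul_pow, Real.sq_sqrt (by positivity), cre]
  simp only [ContinuousLinearMap.add_apply, ContinuousLinearMap.smul_apply,
    ContinuousLinearMap.mul_apply]
  rw [@norm_add_sq ℂ, inner_smul_left, inner_smul_right, h1, norm_smul, norm_smul, mul_pow, mul_pow,
    h0', h2']
  simp; ring

theorem T_bound {γ e : ℝ} (hn : 1 ≤ n) (hσ : ∀ i, 1 ≤ B.σ i) (hε : ∀ j k, |B.ε j * B.ε k| ≤ γ)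
    (hα : ∑ j, ‖B.α j‖ ^ 2 ≤ e ^ 2) (he : 0 ≤ e) (hγ : n * γ ^ 2 ≤ 1 / 64)
    (hs : 8 * e * (2 * n + 1) ≤ 1 / 4) {K : ℕ} {v : H} (hv : v ∈ B.Hs K) (j : Fin n) :
    (B.ε j ^ 2 + B.σ j ^ 2) * ‖B.T j 0 v‖ ≤ (√(B.ε j ^ 2 + B.σ j ^ 2) + n * (γ * (8 * e))) * ‖v‖ := by
  have h1 := B.star_cre_G (B.Hs_le_G K hv) j
  have hγ0 : 0 ≤ γ := (abs_nonneg _).trans (hε j j)
  have h2 : ‖∑ k ∈ univ.erase j, ((B.ε j * B.ε k : ℝ) : ℂ) • B.U (j - k) (B.T k (j - k) v)‖ ≤
      n * (γ * (8 * e * ‖v‖)) := by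
    refine (norm_sum_le _ _).trans ((sum_le_card_nsmul _ _ (γ * (8 * e * ‖v‖)) fun k hk => ?_).trans ?_)
    · have hk' : (j : ℤ) - k ≠ 0 := fun h => (mem_erase.1 hk).1 (Fin.ext (by omega))
      rw [norm_smul, Complex.norm_real, norm_U]
      refine mul_le_mul (hε j k) ((B.norm_T_le hσ _ _ _).trans (le_trans ?_
        (B.boot hn hσ hε hα he hγ hs K v hv {(j : ℤ) - k} (by simpa using hk'.symm))))
        (norm_nonneg _) hγ0
      refine (pow_le_pow_iff_left₀ (norm_nonneg _) (norm_nonneg _) two_ne_zero).1 ?_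
      rw [norm_Pj, sum_singleton]
      exact single_le_sum (f := fun i => ‖B.A (some i) ((j : ℤ) - k) v‖ ^ 2)
        (fun _ _ => by positivity) (mem_univ k)
    · rw [nsmul_eq_mul]
      refine mul_le_mul_of_nonneg_right ?_ (by positivity)
      exact_mod_cast card_erase_le.trans (by simp)
  have h3 := norm_sub_le (star (B.cre j) v)
    (∑ k ∈ univ.erase j, ((B.ε j * B.ε k : ℝ) : ℂ) • B.U (j - k) (B.T k (j - k) v))
  rw [h1, add_sub_cancel_right, ← h1, norm_smul, Complex.norm_real,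
    Real.norm_of_nonneg (by positivity)] at h3
  have h4 := B.norm_star_cre j v
  nlinarith

theorem word_mem (w : List (Fin n)) : (w.map B.Z).prod B.Ω ∈ B.Hs (w.length + 1) := by
  induction w with
  | nil => exact Submodule.subset_span (Or.inl rfl)
  | cons j w ih => exact Submodule.subset_span (Or.inr ⟨j, _, ih, rfl⟩)

end BS
end Crest.Agent.FE
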