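import Mathlib
import Crest.Prelude.Def_CStarRep
import Crest.Prelude.Def_FreeEntropy

/-! Row 89 (S0118): job statements. -/

set_option autoImplicit false
open Crest.OpAlg

namespace Crest.Agent.FE

/-- JOB D (Vol.lean): volume upper bound from triangular polynomial relations. -/
def ChiUpper : Prop := ∀ (A : Type) [Ring A] [Algebra ℂ A] (τ : A →ₗ[ℂ] ℂ) (n : ℕ) (X : Fin n → A)
  (S : Set (Fin n)) (F : Fin n → NCPoly n) (r : Fin n → ℝ),
  (∀ l ∈ S, F l = 0) →
  (∀ (l : Fin n) (d : ℕ) (Y Y' : Fin n → Matrix (Fin d) (Fin d) ℂ), (∀ i ∈ S, Y i = Y' i) →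
    polyEval Y (F l) = polyEval Y' (F l)) →
  (∀ (l : Fin n) (d : ℕ) (Y : Fin n → Matrix (Fin d) (Fin d) ℂ), (∀ i, (Y i).IsHermitian) →
    (polyEval Y (F l)).IsHermitian) →
  (∀ l, 0 < r l) →
  (∀ l, (τ ((X l - polyEval X (F l)) * (X l - polyEval X (F l)))).re < r l ^ 2) →
  chi τ X ≤ ((∑ l, 1 / 2 * Real.log (2 * Real.pi * Real.exp 1 * r l ^ 2) : ℝ) : EReal)

/-- letters: `inl none` = `g`, `inl (some l)` = `s l` (semicircular); `inr true` = `u`,
`inr false` = `u⁻¹` -/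
abbrev Gen (n : ℕ) := Option (Fin n) ⊕ Bool

/-- all ways of cutting a list at an occurrence of `x` -/
def cuts {α : Type} [DecidableEq α] (x : α) : List α → List (List α × List α)
  | [] => []
  | y :: Q => (if y = x then [([], Q)] else []) ++ (cuts x Q).map (fun c => (y :: c.1, c.2))

/-- the model tuple -/
noncomputable def model {A : Type} [Ring A] [Algebra ℂ A] {n : ℕ} (a : Gen n → A) (α : Fin n → ℂ)
    (ε η : Fin n → ℝ) (l : Fin n) : A :=
  α l • a (.inr true) + (starRingEnd ℂ (α l)) • a (.inr false) +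
    (ε l : ℂ) • (a (.inr true) ^ (l : ℕ) * a (.inl none) * a (.inr false) ^ (l : ℕ)) +
    (η l : ℂ) • a (.inl (some l))

/-- JOB E (GUE.lean): microstates of the model tuple have finite entropy. -/
def ChiLower : Prop := ∀ (A : Type) [Ring A] [Algebra ℂ A] (τ : A →ₗ[ℂ] ℂ) (n : ℕ) (a : Gen n → A)
  (α : Fin n → ℂ) (ε η : Fin n → ℝ),
  τ 1 = 1 → (∀ x y, τ (x * y) = τ (y * x)) →
  a (.inr true) * a (.inr false) = 1 → a (.inr false) * a (.inr true) = 1 →
  (∀ (b : Bool) (p : ℕ), τ (a (.inr b) ^ (p + 1)) = 0) →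
  (∀ (x : Option (Fin n)) (Q : List (Gen n)), τ (a (.inl x) * (Q.map a).prod) =
    ((cuts (.inl x) Q).map fun c => τ (c.1.map a).prod * τ (c.2.map a).prod).sum) →
  (∀ l, 0 < η l) →
  ⊥ < chi τ (model a α ε η)

end Crest.Agent.FE
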