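import Crest.Agent.FE.Free

/-! Row 89: general facts on the free Fisher information in the Fock model. -/

set_option autoImplicit false
set_option linter.unusedSectionVars false
open scoped InnerProductSpace ENNReal
open Crest.OpAlg Finset

namespace Crest.Agent.FE

section Poly
variable {A : Type*} [Ring A] [Algebra ℂ A] {n : ℕ}

theorem polyEval_sum (X : Fin n → A) (P : NCPoly n) :
    polyEval X P = P.coeff.sum fun w c => c • wordEval X w := MonoidAlgebra.lift_apply _ _

theorem star_word [StarRing A] {X : Fin n → A} (hX : ∀ i, star (X i) = X i) (l : List (Fin n)) :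
    (l.reverse.map X).prod = star (l.map X).prod := by
  induction l with
  | nil => simp
  | cons a l ih => rw [List.reverse_cons, List.map_append, List.prod_append, ih]; simp [hX]

theorem star_polyEval [StarRing A] [StarModule ℂ A] {X : Fin n → A} (hX : ∀ i, star (X i) = X i)
    (P : NCPoly n) : polyEval X (polyStar P) = star (polyEval X P) := by
  rw [polyEval_sum X P, polyStar, Finsupp.sum, Finsupp.sum, polyEval, map_sum, star_sum]
  refine sum_congr rfl fun w _ => ?_
  rw [star_smul, wordEval_eq, ← star_word hX]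
  exact (polyEval_single X _ _).trans (by rw [wordEval_eq]; rfl)

theorem polyStar_letter (i : Fin n) (c : ℝ) :
    polyStar (MonoidAlgebra.single (FreeMonoid.of i) (c : ℂ)) = MonoidAlgebra.single (FreeMonoid.of i) (c : ℂ) := by
  rw [polyStar, MonoidAlgebra.coeff_single, Finsupp.sum_single_index (by simp)]
  simp only [Complex.conj_ofReal]; rfl

theorem split_letter (τ : A →ₗ[ℂ] ℂ) (h1 : τ 1 = 1) (X : Fin n → A) (i : Fin n) (c : ℂ) :
    splitPairing τ X i (MonoidAlgebra.single (FreeMonoid.of i) c) = c := by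
  rw [splitPairing, MonoidAlgebra.coeff_single, Finsupp.sum_single_index (by simp)]
  simp [wordEval_eq, h1]

end Poly

namespace Fock
variable {Λ H : Type} [DecidableEq Λ] [NormedAddCommGroup H] [InnerProductSpace ℂ H]
  [CompleteSpace H] (F : Fock Λ H) {n : ℕ}

theorem coe_word (Z : Fin n → F.alg) (w : FreeMonoid (Fin n)) :
    (wordEval Z w : F.alg).1 = ((FreeMonoid.toList w).map fun j => (Z j).1).prod :=
  (map_wordEval F.alg.subtype.toAlgHom Z w).trans (wordEval_eq _ _)

theorem coe_poly (Z : Fin n → F.alg) (P : NCPoly n) : (polyEval Z P : F.alg).1 F.Ω =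
    ∑ w ∈ P.coeff.support, P.coeff w • ((FreeMonoid.toList w).map fun j => (Z j).1).prod F.Ω := by
  rw [show (polyEval Z P : F.alg).1 = _ from map_polyEval F.alg.subtype.toAlgHom Z P, polyEval_sum,
    Finsupp.sum, ContinuousLinearMap.sum_apply]
  refine sum_congr rfl fun w _ => ?_
  rw [wordEval_eq]; rfl

theorem split_eq (Z : Fin n → F.alg) (i : Fin n) (ρ : H →L[ℂ] H) (hρ : ρ F.Ω = 0)
    (h : ∀ j v, ρ ((Z j).1 v) = (Z j).1 (ρ v) + if j = i then ((1 : ℂ) * ⟪F.Ω, v⟫_ℂ) • F.Ω else 0)
    (P : NCPoly n) : splitPairing F.τ Z i P = ⟪star ρ F.Ω, (polyEval Z P : F.alg).1 F.Ω⟫_ℂ := by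
  rw [coe_poly, splitPairing, Finsupp.sum, inner_sum]
  refine sum_congr rfl fun w _ => ?_
  rw [inner_smul_right, F.sd_list ρ hρ (fun j => (Z j).1) i 1 h, sum_cuts, one_mul]
  simp only [τ_apply, coe_word]; rfl

theorem τ_sq {a : F.alg} (ha : star a = a) : F.τ (a * a) = ((‖a.1 F.Ω‖ ^ 2 : ℝ) : ℂ) := by
  rw [← F.t0_star_mul, show star a.1 = a.1 from congrArg Subtype.val ha]; rfl

theorem fisher_le {Z : Fin n → F.alg} (hZ : ∀ i, star (Z i) = Z i) (c : Fin n → ℝ)
    (h : ∀ i P, ‖splitPairing F.τ Z i P‖ ≤ c i * ‖(polyEval Z P : F.alg).1 F.Ω‖) :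
    freeFisher F.τ Z ≤ ENNReal.ofReal (∑ i, c i ^ 2) := by
  refine iSup₂_le fun P hP => ENNReal.ofReal_le_ofReal ?_
  rw [Complex.re_sum]
  refine sum_le_sum fun i _ => ?_
  rw [F.τ_sq (by rw [← star_polyEval hZ, hP]), Complex.sub_re, Complex.ofReal_re]
  have h1 := h i (P i)
  have h2 : (2 * splitPairing F.τ Z i (P i)).re ≤ 2 * ‖splitPairing F.τ Z i (P i)‖ :=
    (Complex.re_le_norm _).trans (by simp)
  nlinarith [sq_nonneg (c i - ‖(polyEval Z (P i) : F.alg).1 F.Ω‖)]

theorem fisher_ge {Z : Fin n → F.alg} (hZ : ∀ i, star (Z i) = Z i) {C : ℝ} (hC : 0 < C)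
    (h : ∀ i, ‖(Z i).1 F.Ω‖ ^ 2 ≤ C) : ENNReal.ofReal (n / C) ≤ freeFisher F.τ Z := by
  refine le_iSup₂_of_le (fun i => MonoidAlgebra.single (FreeMonoid.of i) ((C⁻¹ : ℝ) : ℂ))
    (fun i => polyStar_letter i _) (ENNReal.ofReal_le_ofReal ?_)
  rw [Complex.re_sum]
  refine le_trans (by simp [div_eq_mul_inv]) (card_nsmul_le_sum univ _ C⁻¹ fun i _ => ?_)
  rw [split_letter _ F.t0_one, F.τ_sq (by rw [← star_polyEval hZ, polyStar_letter]),
    polyEval_single, show wordEval Z (FreeMonoid.of i) = Z i from FreeMonoid.lift_eval_of _ _]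
  simp only [Complex.sub_re, Complex.ofReal_re, Complex.mul_re, Complex.re_ofNat, Complex.im_ofNat,
    zero_mul, sub_zero]
  rw [show ((((C⁻¹ : ℝ) : ℂ) • Z i : F.alg) : H →L[ℂ] H) F.Ω = ((C⁻¹ : ℝ) : ℂ) • (Z i).1 F.Ω from rfl,
    norm_smul, Complex.norm_real, Real.norm_of_nonneg (by positivity), mul_pow]
  have : C⁻¹ ^ 2 * ‖(Z i).1 F.Ω‖ ^ 2 ≤ C⁻¹ ^ 2 * C := by gcongr; exact h i
  have h2 : C⁻¹ ^ 2 * C = C⁻¹ := by field_simp
  linarith

theorem fisher_meas {Z : ℝ → Fin n → F.alg} (hZ : ∀ i, Continuous fun s => Z s i) :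
    Measurable fun s => freeFisher F.τ (Z s) := by
  have hτ : Continuous F.τ := F.cont_t0.comp continuous_subtype_val
  have hw : ∀ w, Continuous fun s => wordEval (Z s) w := fun w => by
    simp only [wordEval_eq]
    exact continuous_list_prod _ fun i _ => hZ i
  have hp : ∀ P, Continuous fun s => polyEval (Z s) P := fun P => by
    simp only [polyEval_sum, Finsupp.sum]
    exact continuous_finset_sum _ fun w _ => (hw w).const_smul (P.coeff w)
  refine LowerSemicontinuous.measurable (lowerSemicontinuous_biSup fun P _ =>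
    Continuous.lowerSemicontinuous (ENNReal.continuous_ofReal.comp (Complex.continuous_re.comp
      (continuous_finset_sum _ fun i _ => Continuous.sub (continuous_const.mul ?_)
        (hτ.comp ((hp _).mul (hp _)))))))
  simp only [splitPairing, Finsupp.sum]
  refine continuous_finset_sum _ fun w _ => continuous_const.mul (continuous_finset_sum _ fun k _ => ?_)
  split_ifs
  · exact (hτ.comp (hw _)).mul (hτ.comp (hw _))
  · exact continuous_const

end Fock
end Crest.Agent.FE
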