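import Crest.Agent.FE.Defs

/-! Row 89: the Fock model (Haar unitary and free creation operators). -/

set_option autoImplicit false
set_option linter.unusedSectionVars false
open scoped InnerProductSpace

namespace Crest.Agent.FE

structure Fock (Λ H : Type) [DecidableEq Λ] [NormedAddCommGroup H] [InnerProductSpace ℂ H]
    [CompleteSpace H] where
  Ω : H
  U : ℤ → H →L[ℂ] H
  R : ℤ → H →L[ℂ] H
  l : Λ → H →L[ℂ] H
  r : Λ → H →L[ℂ] H
  norm_Ω : ‖Ω‖ = 1
  U_zero : U 0 = 1
  U_add : ∀ p q, U (p + q) = U p * U q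
  star_U : ∀ p, star (U p) = U (-p)
  star_R : ∀ p, star (R p) = R (-p)
  ll : ∀ x y p, star (l x) * U p * l y = if x = y ∧ p = 0 then 1 else 0
  lΩ : ∀ x p, star (l x) (U p Ω) = 0
  UΩ : ∀ p, p ≠ 0 → ⟪Ω, U p Ω⟫_ℂ = 0
  rΩ : ∀ x, r x Ω = l x Ω
  srΩ : ∀ x, star (r x) Ω = 0
  rU : ∀ x p, r x * U p = U p * r x
  rl : ∀ x y, r x * l y = l y * r x
  srl : ∀ x y v, star (r x) (l y v) = l y (star (r x) v) + if x = y then ⟪Ω, v⟫_ℂ • Ω else 0
  RΩ : ∀ p, R p Ω = U p Ω
  RU : ∀ p q, R p * U q = U q * R p
  Rl : ∀ p y, R p * l y = l y * R p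
  cyc : ∀ K : Submodule ℂ H, IsClosed (K : Set H) → Ω ∈ K → (∀ p, ∀ v ∈ K, U p v ∈ K) →
    (∀ x, ∀ v ∈ K, l x v + star (l x) v ∈ K) → K = ⊤

namespace FockM

section V
variable {I : Type}

noncomputable abbrev HH (I : Type) := lp (fun _ : I => ℂ) 2

noncomputable def bb (I : Type) : HilbertBasis I ℂ (HH I) := default

theorem ext_b {F : Type} [NormedAddCommGroup F] [NormedSpace ℂ F] {S T : HH I →L[ℂ] F}
    (h : ∀ x, S (bb I x) = T (bb I x)) : S = T :=
  ContinuousLinearMap.ext_on (s := Set.range (bb I))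
    (by rw [Submodule.dense_iff_topologicalClosure_eq_top]; exact (bb I).dense_span)
    (by rintro _ ⟨x, rfl⟩; exact h x)

theorem inner_b [DecidableEq I] (x y : I) : ⟪bb I x, bb I y⟫_ℂ = if x = y then 1 else 0 :=
  orthonormal_iff_ite.1 (bb I).orthonormal x y

theorem vec_ext {v w : HH I} (h : ∀ x, ⟪bb I x, v⟫_ℂ = ⟪bb I x, w⟫_ℂ) : v = w := by
  apply (bb I).repr.injective
  ext x
  rw [HilbertBasis.repr_apply_apply, HilbertBasis.repr_apply_apply, h]

noncomputable def V (f : I → I) (hf : Function.Injective f) : HH I →L[ℂ] HH I :=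
  (((bb I).orthonormal.comp f hf).orthogonalFamily.linearIsometry.toContinuousLinearMap).comp
    (bb I).repr.toLinearIsometry.toContinuousLinearMap

theorem V_b {f : I → I} (hf : Function.Injective f) (x : I) : V f hf (bb I x) = bb I (f x) := by
  classical
  simp [V, HilbertBasis.repr_self, OrthogonalFamily.linearIsometry_apply_single]

theorem sV_b {f : I → I} (hf : Function.Injective f) (x : I) : star (V f hf) (bb I (f x)) = bb I x := by
  classical
  refine vec_ext fun y => ?_
  rw [ContinuousLinearMap.star_eq_adjoint, ContinuousLinearMap.adjoint_inner_right, V_b, inner_b,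
    inner_b]
  simp [hf.eq_iff]

theorem sV_b0 {f : I → I} (hf : Function.Injective f) {y : I} (hy : ∀ x, f x ≠ y) :
    star (V f hf) (bb I y) = 0 := by
  classical
  refine vec_ext fun x => ?_
  rw [ContinuousLinearMap.star_eq_adjoint, ContinuousLinearMap.adjoint_inner_right, V_b, inner_b,
    if_neg (hy x), inner_zero_right]

end V

variable {Λ : Type}

abbrev Ix (Λ : Type) := ℤ × List (Λ × ℤ)

def sh (p : ℤ) (z : Ix Λ) : Ix Λ := (p + z.1, z.2)
def pre (x : Λ) (z : Ix Λ) : Ix Λ := (0, (x, z.1) :: z.2)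
def apn (x : Λ) (z : Ix Λ) : Ix Λ := (z.1, z.2 ++ [(x, 0)])
def shR0 (p : ℤ) : ℤ → List (Λ × ℤ) → Ix Λ
  | q, [] => (p + q, [])
  | q, a :: L => (q, (a.1, (shR0 p a.2 L).1) :: (shR0 p a.2 L).2)
def shR (p : ℤ) (z : Ix Λ) : Ix Λ := shR0 p z.1 z.2

theorem shR_add (p p' : ℤ) (z : Ix Λ) : shR p (shR p' z) = shR (p + p') z := by
  obtain ⟨q, L⟩ := z
  induction L generalizing q with
  | nil => simp [shR, shR0, add_assoc]
  | cons a L ih =>
    have := ih a.2
    simp only [shR, shR0] at this ⊢
    rw [this]

theorem shR_zero (z : Ix Λ) : shR 0 z = z := by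
  obtain ⟨q, L⟩ := z
  induction L generalizing q with
  | nil => simp [shR, shR0]
  | cons a L ih =>
    have := ih a.2
    simp only [shR, shR0] at this ⊢
    rw [this]

theorem shR_inj (p : ℤ) : Function.Injective (shR (Λ := Λ) p) := fun a b h => by
  have := congrArg (shR (-p)) h
  rwa [shR_add, shR_add, neg_add_cancel, shR_zero, shR_zero] at this

theorem sh_inj (p : ℤ) : Function.Injective (sh (Λ := Λ) p) := fun a b h => by
  simp only [sh, Prod.mk.injEq, add_right_inj] at h
  exact Prod.ext h.1 h.2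

theorem pre_inj (x : Λ) : Function.Injective (pre x) := fun a b h => by
  simp only [pre, Prod.mk.injEq, List.cons.injEq, true_and] at h
  exact Prod.ext h.1 h.2

theorem apn_inj (x : Λ) : Function.Injective (apn x) := fun a b h => by
  simp only [apn, Prod.mk.injEq, List.append_left_inj] at h
  exact Prod.ext h.1 h.2

theorem shR_sh (p q : ℤ) (z : Ix Λ) : shR p (sh q z) = sh q (shR p z) := by
  obtain ⟨t, L⟩ := z
  cases L <;> simp [shR, sh, shR0, add_left_comm]

noncomputable def model (Λ : Type) [DecidableEq Λ] : Fock Λ (HH (Ix Λ)) where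
  Ω := bb _ (0, [])
  U p := V (sh p) (sh_inj p)
  R p := V (shR p) (shR_inj p)
  l x := V (pre x) (pre_inj x)
  r x := V (apn x) (apn_inj x)
  norm_Ω := (bb _).orthonormal.1 _
  U_zero := ext_b fun z => by simp [V_b, sh]
  U_add p q := ext_b fun z => by simp [V_b, sh, add_assoc]
  star_U p := ext_b fun z => by
    have := sV_b (sh_inj p) (sh (-p) z)
    rw [V_b, ← this]; simp [sh]
  star_R p := ext_b fun z => by
    have := sV_b (shR_inj p) (shR (-p) z)
    rw [V_b, ← this, shR_add, add_neg_cancel, shR_zero]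
  ll x y p := ext_b fun z => by
    simp only [ContinuousLinearMap.mul_apply, V_b]
    split_ifs with h
    · obtain ⟨rfl, rfl⟩ := h
      have : sh 0 (pre x z) = pre x z := by simp [sh]
      rw [this, sV_b]; simp
    · rw [sV_b0]; · simp
      intro w hw
      simp only [pre, sh, add_zero, Prod.mk.injEq, List.cons.injEq] at hw
      exact h ⟨hw.2.1.1, hw.1.symm⟩
  lΩ x p := by
    rw [V_b, sV_b0]; intro w hw; simp [pre, sh] at hw
  UΩ p hp := by
    classical
    rw [V_b, inner_b, if_neg]; simp [sh, hp.symm]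
  rΩ x := by rw [V_b, V_b]; rfl
  srΩ x := by
    rw [sV_b0]; intro w hw; simp [apn] at hw
  rU x p := ext_b fun z => by simp [V_b, sh, apn]
  rl x y := ext_b fun z => by simp [V_b, pre, apn]
  srl x y v := by
    classical
    have : star (V (apn x) (apn_inj x)) * V (pre y) (pre_inj y) =
        V (pre y) (pre_inj y) * star (V (apn x) (apn_inj x)) +
          if x = y then (innerSL ℂ (bb (Ix Λ) (0, []))).smulRight (bb (Ix Λ) (0, [])) else 0 := by
      refine ext_b fun z => ?_
      obtain ⟨q, L⟩ := z
      simp only [ContinuousLinearMap.mul_apply, ContinuousLinearMap.add_apply, V_b]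
      rcases L.eq_nil_or_concat with rfl | ⟨L', a, rfl⟩
      · rw [sV_b0 (apn_inj x) (y := (q, [])) (by intro w hw; simp [apn] at hw), map_zero, zero_add]
        by_cases h : x = y ∧ q = 0
        · obtain ⟨rfl, rfl⟩ := h
          have : pre x ((0 : ℤ), []) = apn x (0, []) := rfl
          rw [this, sV_b]; simp [(bb (Ix Λ)).orthonormal.1]
        · rw [sV_b0]
          · split_ifs with hxy
            · have : q ≠ 0 := fun hq => h ⟨hxy, hq⟩
              simp [inner_b, this.symm]
            · simp
          · rintro ⟨t, M⟩ hw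
            cases M with
            | nil => simp only [apn, pre, List.nil_append, Prod.mk.injEq, List.cons.injEq] at hw
                     exact h ⟨hw.2.1.1, hw.2.1.2.symm⟩
            | cons c M => simp [apn, pre] at hw
      · have e0 : (if x = y then (innerSL ℂ (bb (Ix Λ) (0, []))).smulRight (bb (Ix Λ) (0, [])) else 0)
            (bb (Ix Λ) (q, L'.concat a)) = 0 := by
          split_ifs <;> simp [inner_b]
        rw [e0, add_zero]
        by_cases h : a = (x, 0)
        · subst h
          have e1 : pre y (q, L'.concat (x, 0)) = apn x (pre y (q, L')) := by simp [pre, apn]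
          have e2 : (q, L'.concat (x, (0 : ℤ))) = apn x (q, L') := by simp [apn]
          rw [e1, sV_b, e2, sV_b, V_b]
        · rw [sV_b0, sV_b0, map_zero]
          · rintro ⟨t, M⟩ hw
            simp only [apn, List.concat_eq_append, Prod.mk.injEq] at hw
            exact h (List.append_inj_right' hw.2 rfl |> List.singleton_inj.1).symm
          · rintro ⟨t, M⟩ hw
            simp only [apn, pre, List.concat_eq_append, Prod.mk.injEq, ← List.cons_append] at hw
            exact h (List.append_inj_right' hw.2 rfl |> List.singleton_inj.1).symm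
    have h2 := congrArg (fun T : HH (Ix Λ) →L[ℂ] HH (Ix Λ) => T v) this
    simp only [ContinuousLinearMap.mul_apply, ContinuousLinearMap.add_apply] at h2
    rw [h2]; split_ifs <;> simp
  RΩ p := by rw [V_b, V_b]; rfl
  RU p q := ext_b fun z => by simp only [ContinuousLinearMap.mul_apply, V_b, shR_sh]
  Rl p y := ext_b fun z => by simp only [ContinuousLinearMap.mul_apply, V_b]; rfl
  cyc K hK h0 hU hl := by
    have : ∀ (L : List (Λ × ℤ)), (∀ q : ℤ, bb (Ix Λ) (q, L) ∈ K) ∧
        ∀ x q, star (V (pre x) (pre_inj x)) (bb (Ix Λ) (q, L)) ∈ K := by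
      intro L
      induction L with
      | nil =>
        refine ⟨fun q => by simpa [V_b, sh] using hU q _ h0, fun x q => ?_⟩
        rw [sV_b0]; · exact K.zero_mem
        intro w hw; simp [pre] at hw
      | cons a L ih =>
        refine ⟨fun q => ?_, fun x q => ?_⟩
        · have := K.sub_mem (hl a.1 _ (ih.1 a.2)) (ih.2 a.1 a.2)
          rw [add_sub_cancel_right] at this
          simpa [V_b, sh, pre] using hU q _ this
        · by_cases h : (q, a :: L) = pre x (a.2, L)
          · rw [h, sV_b]; exact ih.1 _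
          · rw [sV_b0]; · exact K.zero_mem
            rintro ⟨t, M⟩ hw
            apply h
            simp only [pre, Prod.mk.injEq, List.cons.injEq] at hw ⊢
            obtain ⟨rfl, rfl, rfl⟩ := hw
            simp
    rw [eq_top_iff, ← (bb (Ix Λ)).dense_span]
    refine Submodule.topologicalClosure_minimal _ (Submodule.span_le.2 ?_) hK
    rintro _ ⟨⟨q, L⟩, rfl⟩
    exact (this L).1 q

end FockM
end Crest.Agent.FE
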