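import Crest.Agent.FE.Alg

/-! Row 89: freeness in the Fock model. -/

set_option autoImplicit false
set_option linter.unusedSectionVars false
open scoped InnerProductSpace
open Crest.OpAlg

namespace Crest.Agent.FE

section Poly
variable {A B : Type*} [Ring A] [Algebra ℂ A] [Ring B] [Algebra ℂ B] {n : ℕ}

theorem wordEval_eq (X : Fin n → A) (w : FreeMonoid (Fin n)) :
    wordEval X w = ((FreeMonoid.toList w).map X).prod := FreeMonoid.lift_apply _ _

theorem polyEval_single (X : Fin n → A) (w : FreeMonoid (Fin n)) (c : ℂ) :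
    polyEval X (MonoidAlgebra.single w c) = c • wordEval X w := MonoidAlgebra.lift_single _ _ _

theorem polyEval_add (X : Fin n → A) (P Q : NCPoly n) :
    polyEval X (P + Q) = polyEval X P + polyEval X Q := map_add _ _ _

theorem polyEval_zero (X : Fin n → A) : polyEval X 0 = 0 := map_zero _

theorem poly_ind {p : NCPoly n → Prop} (h0 : p 0) (ha : ∀ P Q, p P → p Q → p (P + Q))
    (hs : ∀ w c, p (MonoidAlgebra.single w c)) (P : NCPoly n) : p P :=
  MonoidAlgebra.induction_linear P h0 ha hs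

theorem map_wordEval (φ : A →ₐ[ℂ] B) (X : Fin n → A) (w : FreeMonoid (Fin n)) :
    φ (wordEval X w) = wordEval (fun i => φ (X i)) w := by
  rw [wordEval_eq, wordEval_eq, map_list_prod, List.map_map]; rfl

theorem map_polyEval (φ : A →ₐ[ℂ] B) (X : Fin n → A) (P : NCPoly n) :
    φ (polyEval X P) = polyEval (fun i => φ (X i)) P := by
  induction P using poly_ind with
  | h0 => simp [polyEval_zero]
  | ha P Q hP hQ => rw [polyEval_add, polyEval_add, map_add, hP, hQ]
  | hs w c => rw [polyEval_single, polyEval_single, map_smul, map_wordEval]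

theorem polyEval_mem (M : Subalgebra ℂ A) {X : Fin n → A} (hX : ∀ i, X i ∈ M) (P : NCPoly n) :
    polyEval X P ∈ M := by
  induction P using poly_ind with
  | h0 => rw [polyEval_zero]; exact zero_mem _
  | ha P Q hP hQ => rw [polyEval_add]; exact add_mem hP hQ
  | hs w c =>
    rw [polyEval_single, wordEval_eq]
    exact M.smul_mem (M.list_prod_mem fun x hx => by
      obtain ⟨i, -, rfl⟩ := List.mem_map.1 hx; exact hX i) c

end Poly

namespace Fock
variable {Λ H : Type} [DecidableEq Λ] [NormedAddCommGroup H] [InnerProductSpace ℂ H]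
  [CompleteSpace H] (F : Fock Λ H)

inductive Cr (P : Set Λ) (G : AddSubgroup ℤ) : (H →L[ℂ] H) → Prop
  | base (p : ℤ) (hp : p ∈ G) : Cr P G (F.U p)
  | step (p : ℤ) (hp : p ∈ G) (x : Λ) (hx : x ∈ P) {c : H →L[ℂ] H} (hc : Cr P G c) :
      Cr P G (F.U p * F.l x * c)

def Sp (P : Set Λ) (G : AddSubgroup ℤ) (E : Submodule ℂ H) : Submodule ℂ (H →L[ℂ] H) where
  carrier := {a | ∃ c ∈ Submodule.span ℂ {c | F.Cr P G c}, ∀ w ∈ E, a w = c w}
  add_mem' := by
    rintro a b ⟨c, hc, h⟩ ⟨c', hc', h'⟩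
    exact ⟨c + c', add_mem hc hc', fun w hw => by simp [h w hw, h' w hw]⟩
  zero_mem' := ⟨0, zero_mem _, fun _ _ => rfl⟩
  smul_mem' := by
    rintro k a ⟨c, hc, h⟩
    exact ⟨k • c, Submodule.smul_mem _ _ hc, fun w hw => by simp [h w hw]⟩

def Mu (P : Set Λ) (G : AddSubgroup ℤ) (E : Submodule ℂ H) : Subalgebra ℂ (H →L[ℂ] H) where
  carrier := {g | ∀ a ∈ F.Sp P G E, g * a ∈ F.Sp P G E}
  mul_mem' := fun hg hg' a ha => by rw [mul_assoc]; exact hg _ (hg' a ha)
  add_mem' := fun hg hg' a ha => by rw [add_mul]; exact add_mem (hg a ha) (hg' a ha)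
  algebraMap_mem' := fun c a ha => by rw [← Algebra.smul_def]; exact Submodule.smul_mem _ _ ha

variable {P : Set Λ} {G : AddSubgroup ℤ} {E : Submodule ℂ H}

theorem Cr_mem {c : H →L[ℂ] H} (hc : F.Cr P G c) : c ∈ F.Sp P G E :=
  ⟨c, Submodule.subset_span hc, fun _ _ => rfl⟩

theorem mem_Mu {g : H →L[ℂ] H} (hg : ∀ c, F.Cr P G c → g * c ∈ F.Sp P G E) : g ∈ F.Mu P G E := by
  rintro a ⟨c, hc, h⟩
  have : g * c ∈ F.Sp P G E := by
    clear h
    induction hc using Submodule.span_induction with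
    | mem c hc => exact hg c hc
    | zero => rw [mul_zero]; exact zero_mem _
    | add c c' _ _ h h' => rw [mul_add]; exact add_mem h h'
    | smul k c _ h => rw [mul_smul_comm]; exact Submodule.smul_mem _ _ h
  obtain ⟨c', hc', h'⟩ := this
  exact ⟨c', hc', fun w hw => by rw [← h' w hw]; simp [h w hw]⟩

theorem U_Mu {q : ℤ} (hq : q ∈ G) : F.U q ∈ F.Mu P G E := F.mem_Mu fun c hc => by
  cases hc with
  | base p hp => rw [← F.U_add]; exact F.Cr_mem (.base _ (add_mem hq hp))
  | step p hp x hx hc =>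
    rw [← mul_assoc, ← mul_assoc, ← F.U_add]; exact F.Cr_mem (.step _ (add_mem hq hp) x hx hc)

theorem s_Mu (hE : ∀ x ∈ P, ∀ p ∈ G, ∀ w ∈ E, star (F.l x) (F.U p w) = 0) {x : Λ} (hx : x ∈ P) :
    F.s x ∈ F.Mu P G E := by
  refine add_mem (F.mem_Mu fun c hc => ?_) (F.mem_Mu fun c hc => ?_)
  · simpa [F.U_zero] using F.Cr_mem (E := E) (.step 0 (zero_mem G) x hx hc)
  · cases hc with
    | base p hp => exact ⟨0, zero_mem _, fun w hw => hE x hx p hp w hw⟩
    | step p hp y hy hc =>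
      rw [← mul_assoc, ← mul_assoc, F.ll]
      split_ifs
      · rw [one_mul]; exact F.Cr_mem hc
      · rw [zero_mul]; exact zero_mem _

theorem Mu_out {O : Submodule ℂ H} (hΩ : F.Ω ∈ E) (hO : ∀ v ∈ O, ⟪F.Ω, v⟫_ℂ = 0)
    (h1 : ∀ p ∈ G, p ≠ 0 → ∀ w ∈ E, F.U p w ∈ O) (h2 : ∀ p ∈ G, ∀ x ∈ P, ∀ v, F.U p (F.l x v) ∈ O)
    {a : H →L[ℂ] H} (ha : a ∈ F.Mu P G E) (h0 : F.t0 a = 0) : ∀ w ∈ E, a w ∈ O := by
  obtain ⟨c, hc, h⟩ := ha 1 (by simpa [F.U_zero] using F.Cr_mem (E := E) (.base (P := P) 0 (zero_mem G)))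
  rw [mul_one] at h
  have : ∃ k : ℂ, ∀ w ∈ E, c w - k • w ∈ O := by
    clear h
    induction hc using Submodule.span_induction with
    | mem c hc =>
      cases hc with
      | base p hp =>
        by_cases hp0 : p = 0
        · exact ⟨1, fun w _ => by simp [hp0, F.U_zero]⟩
        · exact ⟨0, fun w hw => by simpa using h1 p hp hp0 w hw⟩
      | step p hp x hx hc => exact ⟨0, fun w _ => by simpa using h2 p hp x hx _⟩
    | zero => exact ⟨0, by simp⟩
    | add c c' _ _ h h' =>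
      obtain ⟨k, hk⟩ := h; obtain ⟨k', hk'⟩ := h'
      refine ⟨k + k', fun w hw => ?_⟩
      convert add_mem (hk w hw) (hk' w hw) using 1
      simp only [ContinuousLinearMap.add_apply, add_smul]; abel
    | smul k' c _ h =>
      obtain ⟨k, hk⟩ := h
      refine ⟨k' * k, fun w hw => ?_⟩
      convert O.smul_mem k' (hk w hw) using 1
      simp only [ContinuousLinearMap.smul_apply, smul_sub, mul_smul]
  obtain ⟨k, hk⟩ := this
  have hk0 := hO _ (hk _ hΩ)
  rw [inner_sub_right, ← h _ hΩ, inner_smul_right, F.inner_Ω, mul_one] at hk0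
  have : k = 0 := by rw [t0] at h0; rw [h0, zero_sub, neg_eq_zero] at hk0; exact hk0
  intro w hw
  simpa [this, h w hw] using hk w hw

end Fock

section Fam
variable {κ H : Type} {n : ℕ} [DecidableEq κ] [NormedAddCommGroup H] [InnerProductSpace ℂ H]
  [CompleteSpace H] (F : Fock (κ ⊕ Fin n) H)

def E0 : Submodule ℂ H := Submodule.span ℂ ({F.Ω} ∪ {v | ∃ i w, v = F.l (.inr i) w})

noncomputable def Et : Option (Fin n) → Submodule ℂ H
  | none => E0 F
  | some i => (star (F.l (.inr i))).ker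

noncomputable def Ot : Option (Fin n) → Submodule ℂ H
  | none => Submodule.span ℂ ({v | ∃ p ≠ 0, ∃ w ∈ E0 F, v = F.U p w} ∪
      {v | ∃ p x w, v = F.U p (F.l (.inl x) w)})
  | some i => (F.l (.inr i)).range

def Pt : Option (Fin n) → Set (κ ⊕ Fin n)
  | none => Set.range Sum.inl
  | some i => {Sum.inr i}

def Gt : Option (Fin n) → AddSubgroup ℤ
  | none => ⊤
  | some _ => ⊥

theorem E0_ind (T : H →L[ℂ] H) (h0 : T F.Ω = 0) (h1 : ∀ i w, T (F.l (.inr i) w) = 0) :
    ∀ w ∈ E0 F, T w = 0 := by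
  intro w hw
  have : E0 F ≤ T.ker := Submodule.span_le.2 (by
    rintro _ (rfl | ⟨i, w, rfl⟩)
    exacts [h0, h1 i w])
  exact this hw

theorem inner_Ω_l (p : ℤ) (x : κ ⊕ Fin n) (w : H) : ⟪F.Ω, F.U p (F.l x w)⟫_ℂ = 0 := by
  rw [← Fock.inner_star', ← Fock.inner_star', F.star_U, F.lΩ, inner_zero_left]

theorem Ot_perp (t : Option (Fin n)) : ∀ v ∈ Ot F t, ⟪F.Ω, v⟫_ℂ = 0 := by
  cases t with
  | none =>
    intro v hv
    have : Ot F none ≤ (innerSL ℂ F.Ω).ker := Submodule.span_le.2 (by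
      rintro _ (⟨p, hp, w, hw, rfl⟩ | ⟨p, x, w, rfl⟩)
      · have := E0_ind F (((innerSL ℂ F.Ω).smulRight F.Ω) * F.U p) (by simp [F.UΩ p hp])
          (fun i w => by simp [inner_Ω_l]) w hw
        have hne : F.Ω ≠ 0 := fun h => by simpa [h] using F.norm_Ω
        simpa [hne] using this
      · exact inner_Ω_l F p _ w)
    exact this hv
  | some i => rintro _ ⟨w, rfl⟩; simpa [F.U_zero] using inner_Ω_l F 0 (.inr i) w

theorem Ot_le {t t' : Option (Fin n)} (h : t ≠ t') : Ot F t ≤ Et F t' := by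
  cases t with
  | none =>
    cases t' with
    | none => exact absurd rfl h
    | some i =>
      refine Submodule.span_le.2 ?_
      rintro _ (⟨p, hp, w, hw, rfl⟩ | ⟨p, x, w, rfl⟩)
      · exact E0_ind F (star (F.l (.inr i)) * F.U p) (F.lΩ _ _)
          (fun j w => by simp [F.llp, hp]) w hw
      · simp [Et, F.llp]
  | some i =>
    rintro _ ⟨w, rfl⟩
    cases t' with
    | none => exact Submodule.subset_span (Or.inr ⟨i, w, rfl⟩)
    | some j =>
      have : j ≠ i := fun e => h (by rw [e])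
      simp [Et, F.ll0, this]

theorem Ω_Et (t : Option (Fin n)) : F.Ω ∈ Et F t := by
  cases t with
  | none => exact Submodule.subset_span (Or.inl rfl)
  | some i => exact F.sl_Ω _

theorem hEt (t : Option (Fin n)) :
    ∀ x ∈ Pt (κ := κ) t, ∀ p ∈ Gt t, ∀ w ∈ Et F t, star (F.l x) (F.U p w) = 0 := by
  cases t with
  | none =>
    rintro _ ⟨x, rfl⟩ p - w hw
    exact E0_ind F (star (F.l (.inl x)) * F.U p) (F.lΩ _ _) (fun j w => by simp [F.llp]) w hw
  | some i =>
    rintro _ rfl p hp w hw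
    obtain rfl : p = 0 := hp
    simpa [F.U_zero, Et] using hw

theorem out_t (t : Option (Fin n)) {a : H →L[ℂ] H} (ha : a ∈ F.Mu (Pt t) (Gt t) (Et F t))
    (h0 : F.t0 a = 0) : ∀ w ∈ Et F t, a w ∈ Ot F t := by
  refine F.Mu_out (Ω_Et F t) (Ot_perp F t) ?_ ?_ ha h0
  · cases t with
    | none => exact fun p _ hp w hw => Submodule.subset_span (Or.inl ⟨p, hp, w, hw, rfl⟩)
    | some i => exact fun p hp h => absurd hp h
  · cases t with
    | none => rintro p - _ ⟨x, rfl⟩ v; exact Submodule.subset_span (Or.inr ⟨p, x, v, rfl⟩)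
    | some i =>
      rintro p hp _ rfl v
      obtain rfl : p = 0 := hp
      exact ⟨v, by simp [F.U_zero]⟩

theorem isFree (gens : Option (Fin n) → Fin n → F.alg)
    (hg : ∀ t i, (gens t i : H →L[ℂ] H) ∈ F.Mu (Pt t) (Gt t) (Et F t)) : IsFreeFamily F.τ gens := by
  have key : ∀ (l : List (Option (Fin n) × NCPoly n)) (e : Option (Fin n) × NCPoly n),
      (e :: l).IsChain (fun a b => a.1 ≠ b.1) → (∀ x ∈ e :: l, F.τ (polyEval (gens x.1) x.2) = 0) →
      (((e :: l).map fun e => polyEval (gens e.1) e.2).prod : F.alg).1 F.Ω ∈ Ot F e.1 := by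
    intro l
    have hm : ∀ e : Option (Fin n) × NCPoly n,
        (polyEval (gens e.1) e.2 : F.alg).1 ∈ F.Mu (Pt e.1) (Gt e.1) (Et F e.1) := fun e => by
      have := map_polyEval F.alg.subtype.toAlgHom (gens e.1) e.2
      exact (show (polyEval (gens e.1) e.2 : F.alg).1 = _ from this) ▸ polyEval_mem _ (hg e.1) e.2
    induction l with
    | nil =>
      intro e _ h
      simpa using out_t F e.1 (hm e) (h e (by simp)) _ (Ω_Et F _)
    | cons e' l ih =>
      intro e hc h
      rw [List.isChain_cons_cons] at hc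
      have := ih e' hc.2 fun x hx => h x (List.mem_cons_of_mem _ hx)
      rw [List.map_cons, List.prod_cons]
      exact out_t F e.1 (hm e) (h e (by simp)) _ (Ot_le F hc.1.symm this)
  intro l hl hc h
  obtain ⟨e, l, rfl⟩ := List.exists_cons_of_ne_nil hl
  exact Ot_perp F _ _ (key l e hc h)

end Fam
end Crest.Agent.FE
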