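import Mathlib

/-! Row 89, job E: Gaussian integration by parts for polynomials; tails; density bound. -/

set_option autoImplicit false
open MeasureTheory ProbabilityTheory MvPolynomial

namespace Crest.Agent.FE.GP

/-- standard Gaussian product measure -/
noncomputable def gm (ι : Type) [Fintype ι] : Measure (ι → ℝ) :=
  Measure.pi (fun _ => gaussianReal 0 1)

instance (ι : Type) [Fintype ι] : IsProbabilityMeasure (gm ι) := by
  unfold gm; infer_instance

theorem int_pow (k : ℕ) : Integrable (fun x : ℝ => x ^ k) (gaussianReal 0 1) := by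
  have h := (memLp_id_gaussianReal' (μ := 0) (v := 1) (k : ENNReal) (by simp)).integrable_norm_pow'
  refine (integrable_norm_iff (by fun_prop)).1 ?_
  simpa [norm_pow] using h

theorem int_pow_pdf (k : ℕ) : Integrable (fun x : ℝ => x ^ k * gaussianPDFReal 0 1 x) := by
  have h := int_pow k
  rw [gaussianReal_of_var_ne_zero _ one_ne_zero,
    integrable_withDensity_iff (measurable_gaussianPDF _ _)
      (ae_of_all _ fun _ => gaussianPDF_lt_top)] at h
  simpa using h

theorem hasDeriv_pdf (x : ℝ) :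
    HasDerivAt (gaussianPDFReal 0 1) (-x * gaussianPDFReal 0 1 x) x := by
  have h1 : HasDerivAt (fun y : ℝ => -(y - 0) ^ 2 / (2 * ((1 : NNReal) : ℝ))) (-x) x := by
    have := (((hasDerivAt_id x).sub_const 0).pow 2).neg.div_const (2 * ((1 : NNReal) : ℝ))
    refine this.congr_deriv ?_
    simp only [id, NNReal.coe_one, Nat.cast_ofNat]; ring
  have h2 := h1.exp.const_mul (√(2 * Real.pi * ((1 : NNReal) : ℝ)))⁻¹
  refine HasDerivAt.congr_deriv (f := gaussianPDFReal 0 1) h2 ?_
  rw [gaussianPDFReal]; ring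

theorem mom_rec (k : ℕ) : ∫ x, x ^ (k + 1) ∂(gaussianReal 0 1) =
    k * ∫ x, x ^ (k - 1) ∂(gaussianReal 0 1) := by
  rw [integral_gaussianReal_eq_integral_smul one_ne_zero,
    integral_gaussianReal_eq_integral_smul one_ne_zero]
  have h := integral_mul_deriv_eq_deriv_mul_of_integrable (u := fun x : ℝ => x ^ k)
    (u' := fun x : ℝ => k * x ^ (k - 1)) (v := gaussianPDFReal 0 1)
    (v' := fun x => -x * gaussianPDFReal 0 1 x)
    (fun x _ => by simpa using hasDerivAt_pow k x) (fun x _ => hasDeriv_pdf x)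
    (by
      refine (int_pow_pdf (k + 1)).neg.congr (ae_of_all _ fun x => ?_)
      simp only [Pi.neg_apply, Pi.mul_apply]; ring)
    (by
      refine ((int_pow_pdf (k - 1)).const_mul k).congr (ae_of_all _ fun x => ?_)
      simp only [Pi.mul_apply]; ring)
    (int_pow_pdf k)
  have e1 : ∫ x, gaussianPDFReal 0 1 x • x ^ (k + 1) =
      -∫ x : ℝ, x ^ k * (-x * gaussianPDFReal 0 1 x) := by
    rw [← integral_neg]; congr 1; funext x; simp only [smul_eq_mul]; ring
  rw [e1, h, neg_neg, ← integral_const_mul]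
  congr 1; funext x; simp only [smul_eq_mul]; ring

variable {ι : Type} [Fintype ι]

/-- evaluation at a real point -/
noncomputable def ev (b : ι → ℝ) : MvPolynomial ι ℂ →ₐ[ℂ] ℂ := aeval fun i => (b i : ℂ)

theorem ev_monomial (b : ι → ℝ) (s : ι →₀ ℕ) (c : ℂ) :
    ev b (monomial s c) = c * ∏ i, (((b i) ^ (s i) : ℝ) : ℂ) := by
  rw [ev, aeval_monomial, Finsupp.prod_fintype _ _ (by simp)]
  simp

theorem int_prod (s : ι → ℕ) :
    Integrable (fun b : ι → ℝ => ∏ i, (((b i) ^ (s i) : ℝ) : ℂ)) (gm ι) :=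
  Integrable.fintype_prod (f := fun i (x : ℝ) => ((x ^ (s i) : ℝ) : ℂ))
    (μ := fun _ => gaussianReal 0 1) fun i => (int_pow (s i)).ofReal

theorem integrable_ev (p : MvPolynomial ι ℂ) : Integrable (fun b => ev b p) (gm ι) := by
  induction p using MvPolynomial.induction_on' with
  | monomial s c => simp_rw [ev_monomial]; exact (int_prod s).const_mul c
  | add p q hp hq => simp_rw [map_add]; exact hp.add hq

theorem continuous_ev (p : MvPolynomial ι ℂ) : Continuous (fun b : ι → ℝ => ev b p) := by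
  induction p using MvPolynomial.induction_on' with
  | monomial s c => simp_rw [ev_monomial]; fun_prop
  | add p q hp hq => simp_rw [map_add]; exact hp.add hq

/-- Gaussian expectation of a polynomial -/
noncomputable def EE : MvPolynomial ι ℂ →ₗ[ℂ] ℂ where
  toFun p := ∫ b, ev b p ∂(gm ι)
  map_add' p q := by simp_rw [map_add]; exact integral_add (integrable_ev p) (integrable_ev q)
  map_smul' c p := by simp_rw [map_smul]; rw [integral_smul]; rfl

theorem EE_apply (p : MvPolynomial ι ℂ) : EE p = ∫ b, ev b p ∂(gm ι) := rfl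

theorem EE_C (c : ℂ) : EE (C c : MvPolynomial ι ℂ) = c := by
  rw [EE_apply]; simp [ev]

theorem EE_monomial (s : ι →₀ ℕ) (c : ℂ) : EE (monomial s c) =
    c * ∏ i, ((∫ x, x ^ (s i) ∂(gaussianReal 0 1) : ℝ) : ℂ) := by
  rw [EE_apply]; simp_rw [ev_monomial]
  rw [integral_const_mul, gm,
    integral_fintype_prod_eq_prod (fun i (x : ℝ) => ((x ^ (s i) : ℝ) : ℂ))]
  congr 1
  exact Finset.prod_congr rfl fun i _ => integral_ofReal

theorem EE_ibp (i : ι) (p : MvPolynomial ι ℂ) : EE (X i * p) = EE (pderiv i p) := by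
  classical
  induction p using MvPolynomial.induction_on' with
  | add p q hp hq => rw [mul_add, map_add, map_add, map_add, hp, hq]
  | monomial s c =>
    rw [pderiv_monomial, X, monomial_mul, EE_monomial, EE_monomial,
      ← Finset.mul_prod_erase _ _ (Finset.mem_univ i), ← Finset.mul_prod_erase _ _ (Finset.mem_univ i)]
    have e1 : ∏ j ∈ Finset.univ.erase i,
        ((∫ x, x ^ ((Finsupp.single i 1 + s : ι →₀ ℕ) j) ∂(gaussianReal 0 1) : ℝ) : ℂ) =
        ∏ j ∈ Finset.univ.erase i,
        ((∫ x, x ^ ((s - Finsupp.single i 1 : ι →₀ ℕ) j) ∂(gaussianReal 0 1) : ℝ) : ℂ) := by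
      refine Finset.prod_congr rfl fun j hj => ?_
      have : j ≠ i := (Finset.mem_erase.1 hj).1
      simp [Finsupp.single_eq_of_ne this]
    rw [e1]
    have e2 : (Finsupp.single i 1 + s : ι →₀ ℕ) i = s i + 1 := by simp [add_comm]
    have e3 : (s - Finsupp.single i 1 : ι →₀ ℕ) i = s i - 1 := by simp
    rw [e2, e3, mom_rec]
    push_cast; ring

/-- Gaussian tail of a linear form -/
theorem tail (c : ι → ℝ) (V t : ℝ) (hV : 0 < V) (ht : 0 ≤ t) (hc : ∑ i, c i ^ 2 ≤ V) :
    (gm ι).real {b | t ≤ ∑ i, c i * b i} ≤ Real.exp (-(t ^ 2 / (2 * V))) := by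
  have hs : 0 ≤ t / V := div_nonneg ht hV.le
  have e : ∀ b : ι → ℝ, Real.exp (t / V * ∑ i, c i * b i) = ∏ i, Real.exp ((t / V * c i) * b i) := by
    intro b; rw [← Real.exp_sum, Finset.mul_sum]; congr 1
    exact Finset.sum_congr rfl fun i _ => by ring
  have hint : Integrable (fun b : ι → ℝ => Real.exp (t / V * ∑ i, c i * b i)) (gm ι) := by
    simp_rw [e]
    exact Integrable.fintype_prod (f := fun i (x : ℝ) => Real.exp ((t / V * c i) * x))
      (μ := fun _ => gaussianReal 0 1) fun i => integrable_exp_mul_gaussianReal _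
  refine (measure_ge_le_exp_mul_mgf (X := fun b : ι → ℝ => ∑ i, c i * b i) t hs hint).trans ?_
  have hm : mgf (fun b : ι → ℝ => ∑ i, c i * b i) (gm ι) (t / V) =
      Real.exp ((t / V) ^ 2 / 2 * ∑ i, c i ^ 2) := by
    rw [mgf]; simp_rw [e]
    rw [gm, integral_fintype_prod_eq_prod (fun i (x : ℝ) => Real.exp ((t / V * c i) * x)),
      Finset.mul_sum, Real.exp_sum]
    refine Finset.prod_congr rfl fun i _ => ?_
    have := congrFun (mgf_fun_id_gaussianReal (μ := 0) (v := 1)) (t / V * c i)
    rw [mgf] at this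
    rw [this]; congr 1; simp; ring
  rw [hm, ← Real.exp_add]
  refine Real.exp_le_exp.2 ?_
  have : (t / V) ^ 2 / 2 * ∑ i, c i ^ 2 ≤ (t / V) ^ 2 / 2 * V := by gcongr
  have e2 : -(t / V) * t + (t / V) ^ 2 / 2 * V = -(t ^ 2 / (2 * V)) := by field_simp; ring
  linarith

theorem gauss_le_vol : gaussianReal 0 1 ≤ (volume : Measure ℝ) := by
  rw [gaussianReal_of_var_ne_zero _ one_ne_zero]
  have : (volume : Measure ℝ).withDensity (gaussianPDF 0 1) ≤ volume.withDensity 1 := by
    refine withDensity_mono (ae_of_all _ fun x => ?_)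
    rw [gaussianPDF, Pi.one_apply, ENNReal.ofReal_le_one, gaussianPDFReal]
    have h1 : (√(2 * Real.pi * ((1 : NNReal) : ℝ)))⁻¹ ≤ 1 := by
      apply inv_le_one_of_one_le₀
      rw [Real.one_le_sqrt]
      have := Real.pi_gt_three
      simp; linarith
    have h2 : Real.exp (-(x - 0) ^ 2 / (2 * ((1 : NNReal) : ℝ))) ≤ 1 := by
      rw [Real.exp_le_one_iff]
      have : 0 ≤ (x - 0) ^ 2 := sq_nonneg _
      simp only [NNReal.coe_one]; linarith
    exact mul_le_one₀ h1 (Real.exp_pos _).le h2
  simpa using this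

theorem gm_le_vol (s : Set (ι → ℝ)) (hs : MeasurableSet s) : gm ι s ≤ volume s := by
  rw [volume_pi, Measure.pi_def, toMeasure_apply _ _ hs]
  have : (gm ι).toOuterMeasure ≤
      OuterMeasure.pi fun _ : ι => (volume : Measure ℝ).toOuterMeasure := by
    rw [OuterMeasure.le_pi]
    intro t _
    simp only [Measure.coe_toOuterMeasure]
    rw [gm, Measure.pi_pi]
    exact Finset.prod_le_prod' fun i _ => gauss_le_vol _
  exact this s

end Crest.Agent.FE.GP
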