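import Crest.Agent.FE.Net

/-! Row 89, job E: the model tuple has microstates entropy `> -∞`. -/

set_option autoImplicit false
open Crest.OpAlg Filter Topology MeasureTheory MvPolynomial

namespace Crest.Agent.FE.GU
open HM GP WK NT

variable {n d : ℕ}

def sw : Gen n → Gen n
  | .inl x => .inl x
  | .inr b => .inr (!b)

def rev (w : List (Gen n)) : List (Gen n) := (w.map sw).reverse

theorem Ud_star (b : Bool) : (Ud d b).conjTranspose = Ud d (!b) := by
  have h : starRingEnd ℂ (zt d true) = zt d false := by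
    simp only [zt]
    rw [← Complex.exp_conj, ← Complex.exp_neg]
    congr 1
    simp [map_ofNat]; ring
  have h' : ∀ c, star (zt d c) = zt d (!c) := by
    intro c; cases c
    · rw [← h]; simp
    · exact h
  rw [Ud, Ud, Matrix.diagonal_conjTranspose]
  congr 1; funext j
  rw [Pi.star_apply, star_pow, h']

theorem G0_star (b : Ix n d → ℝ) (g : Gen n) : (G0 b g).conjTranspose = G0 b (sw g) := by
  rcases g with x | c
  · simp only [G0, sw]
    rw [Matrix.conjTranspose_smul, (hm_herm _).eq]; simp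
  · exact Ud_star c

theorem ev_t_rev (b : Ix n d → ℝ) (w : List (Gen n)) :
    ev b (t d (rev w)) = starRingEnd ℂ (ev b (t d w)) := by
  rw [ev_t, ev_t, map_mul, ← Complex.star_def, ← Matrix.trace_conjTranspose,
    Matrix.conjTranspose_list_prod, rev, List.map_reverse, List.map_map, List.map_map]
  congr 1
  · simp
  · congr 4; funext g; exact (G0_star b g).symm

abbrev Fr (n : ℕ) := MonoidAlgebra ℂ (FreeMonoid (Gen n))

noncomputable def Lam {M : Type} [Ring M] [Algebra ℂ M] (a : Gen n → M) : Fr n →ₐ[ℂ] M :=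
  MonoidAlgebra.lift ℂ M (FreeMonoid (Gen n)) (FreeMonoid.lift a)

noncomputable def gen (g : Gen n) : Fr n := MonoidAlgebra.of ℂ _ (FreeMonoid.of g)

theorem Lam_gen {M : Type} [Ring M] [Algebra ℂ M] (a : Gen n → M) (g : Gen n) :
    Lam a (gen g) = a g := by simp [Lam, gen]

theorem map_model {M N : Type} [Ring M] [Algebra ℂ M] [Ring N] [Algebra ℂ N] (φ : M →ₐ[ℂ] N)
    (a : Gen n → M) (α : Fin n → ℂ) (ε η : Fin n → ℝ) (l : Fin n) :
    φ (model a α ε η l) = model (fun g => φ (a g)) α ε η l := by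
  simp only [model, map_add, map_smul, map_mul, map_pow]

theorem Lam_word {M : Type} [Ring M] [Algebra ℂ M] (a : Gen n → M) (α : Fin n → ℂ)
    (ε η : Fin n → ℝ) (w : FreeMonoid (Fin n)) :
    Lam a (wordEval (model gen α ε η) w) = wordEval (model a α ε η) w := by
  rw [wordEval, wordEval, FreeMonoid.lift_apply, FreeMonoid.lift_apply, map_list_prod, List.map_map]
  congr 2; funext l
  simp only [Function.comp, map_model, Lam_gen]

section conv
variable {A : Type} [Ring A] [Algebra ℂ A] (τ : A →ₗ[ℂ] ℂ) (a : Gen n → A)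

def Good (p : Fr n) : Prop := ∀ δ : ℝ, 0 < δ → Tendsto (fun d : ℕ => (gm (Ix n d)).real
  {b | δ ≤ ‖(d : ℂ)⁻¹ * (Lam (G0 b) p).trace - τ (Lam a p)‖}) atTop (𝓝 0)

theorem good_word
    (hc : ∀ L : List (List (Gen n)),
      Tendsto (fun d => EE (P d L)) atTop (𝓝 (L.map fun w => τ (w.map a).prod).prod))
    (w : FreeMonoid (Gen n)) : Good τ a (MonoidAlgebra.of ℂ _ w) := by
  intro δ hδ
  have e : ∀ {M : Type} [Ring M] [Algebra ℂ M] (c : Gen n → M),
      Lam c (MonoidAlgebra.of ℂ _ w) = (w.toList.map c).prod := by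
    intro M _ _ c
    rw [Lam, MonoidAlgebra.lift_of, FreeMonoid.lift_apply]
  simp_rw [e, ← ev_t]
  set v := w.toList
  set z := τ (v.map a).prod with hz
  set z' := τ ((rev v).map a).prod with hz'
  let q : ∀ d, PR n d := fun d => (t d v - C z) * (t d (rev v) - C (starRingEnd ℂ z))
  have hq : ∀ d (b : Ix n d → ℝ), ev b (q d) = ((‖ev b (t d v) - z‖ ^ 2 : ℝ) : ℂ) := by
    intro d b
    have hC : ∀ c, ev b (C c) = c := fun c => by simp [ev]
    simp only [q, map_mul, map_sub, hC, ev_t_rev]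
    rw [← map_sub, Complex.mul_conj']; push_cast; rfl
  have hE : ∀ d, EE (q d) = EE (P d [v, rev v]) - starRingEnd ℂ z * EE (P d [v]) -
      z * EE (P d [rev v]) + z * starRingEnd ℂ z := by
    intro d
    have : q d = P d [v, rev v] - starRingEnd ℂ z • P d [v] - z • P d [rev v] +
        C (z * starRingEnd ℂ z) := by
      simp only [q, P, List.map_cons, List.map_nil, List.prod_cons, List.prod_nil, smul_eq_C_mul,
        map_mul]
      ring
    rw [this, map_add, map_sub, map_sub, map_smul, map_smul, EE_C]; rfl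
  have hT : Tendsto (fun d => EE (q d)) atTop (𝓝 0) := by
    simp_rw [hE]
    have := (((hc [v, rev v]).sub ((hc [v]).const_mul (starRingEnd ℂ z))).sub
      ((hc [rev v]).const_mul z)).add_const (z * starRingEnd ℂ z)
    convert this using 2
    simp only [List.map_cons, List.map_nil, List.prod_cons, List.prod_nil, ← hz, ← hz']; ring
  have hT2 : Tendsto (fun d => (EE (q d)).re / δ ^ 2) atTop (𝓝 0) := by
    simpa using ((Complex.continuous_re.tendsto 0).comp hT).div_const (δ ^ 2)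
  refine squeeze_zero (fun _ => measureReal_nonneg) (fun d => ?_) hT2
  have hint : Integrable (fun b : Ix n d → ℝ => ‖ev b (t d v) - z‖ ^ 2) (gm _) := by
    have := (integrable_ev (q d)).re
    simp_rw [hq] at this
    simpa only [RCLike.re_to_complex, Complex.ofReal_re] using this
  have hm := mul_meas_ge_le_integral_of_nonneg (μ := gm (Ix n d))
    (ae_of_all _ fun b => sq_nonneg _) hint (δ ^ 2)
  have e2 : (EE (q d)).re = ∫ b, ‖ev b (t d v) - z‖ ^ 2 ∂(gm (Ix n d)) := by
    rw [EE_apply]; simp_rw [hq]; rw [integral_complex_ofReal, Complex.ofReal_re]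
  rw [le_div_iff₀ (by positivity), mul_comm, e2]
  refine le_of_eq_of_le ?_ hm
  congr 2; ext b
  simp only [Set.mem_setOf_eq]
  exact (sq_le_sq₀ hδ.le (norm_nonneg _)).symm

theorem good_all
    (hc : ∀ L : List (List (Gen n)),
      Tendsto (fun d => EE (P d L)) atTop (𝓝 (L.map fun w => τ (w.map a).prod).prod))
    (p : Fr n) : Good τ a p := by
  induction p using MonoidAlgebra.induction_on with
  | of w => exact good_word τ a hc w
  | add p q hp hq =>
    intro δ hδ
    have := (hp (δ / 2) (by positivity)).add (hq (δ / 2) (by positivity))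
    rw [add_zero] at this
    refine squeeze_zero (fun _ => measureReal_nonneg) (fun d => ?_) this
    refine le_trans (measureReal_mono ?_ (measure_ne_top _ _)) (measureReal_union_le _ _)
    intro b hb
    by_contra hcon
    simp only [Set.mem_union, Set.mem_setOf_eq, not_or, not_le] at hcon hb
    rw [map_add, map_add, map_add, Matrix.trace_add, mul_add, add_sub_add_comm] at hb
    have := norm_add_le ((d : ℂ)⁻¹ * (Lam (G0 b) p).trace - τ (Lam a p))
      ((d : ℂ)⁻¹ * (Lam (G0 b) q).trace - τ (Lam a q))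
    linarith [hcon.1, hcon.2]
  | smul c p hp =>
    intro δ hδ
    have := hp (δ / (‖c‖ + 1)) (by positivity)
    refine squeeze_zero (fun _ => measureReal_nonneg) (fun d => ?_) this
    refine measureReal_mono ?_ (measure_ne_top _ _)
    intro b hb
    simp only [Set.mem_setOf_eq] at hb ⊢
    rw [map_smul, map_smul, map_smul, Matrix.trace_smul, smul_eq_mul, smul_eq_mul, mul_left_comm,
      ← mul_sub, norm_mul] at hb
    rw [div_le_iff₀ (by positivity)]
    nlinarith [norm_nonneg ((d : ℂ)⁻¹ * (Lam (G0 b) p).trace - τ (Lam a p))]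

end conv

theorem norm_model {B : Type} [NormedRing B] [NormedAlgebra ℂ B] (a : Gen n → B)
    (h1 : ‖(1 : B)‖ ≤ 1) (hu : ∀ c, ‖a (.inr c)‖ ≤ 1) (hs : ∀ x, ‖a (.inl x)‖ ≤ 16)
    (α : Fin n → ℂ) (ε η : Fin n → ℝ) (l : Fin n) :
    ‖model a α ε η l‖ ≤ 2 * ‖α l‖ + 16 * (|ε l| + |η l|) := by
  have hp : ∀ c (k : ℕ), ‖a (.inr c) ^ k‖ ≤ 1 := by
    intro c k
    induction k with
    | zero => simpa using h1
    | succ k ih =>
      rw [pow_succ]; exact (norm_mul_le _ _).trans (mul_le_one₀ ih (norm_nonneg _) (hu c))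
  have h3 : ‖a (.inr true) ^ (l : ℕ) * a (.inl none) * a (.inr false) ^ (l : ℕ)‖ ≤ 16 := by
    calc _ ≤ ‖a (.inr true) ^ (l : ℕ)‖ * ‖a (.inl none)‖ * ‖a (.inr false) ^ (l : ℕ)‖ :=
          (norm_mul_le _ _).trans (by gcongr; exact norm_mul_le _ _)
      _ ≤ 1 * 16 * 1 := by gcongr <;> simp [hp, hs]
      _ = 16 := by norm_num
  rw [model]
  refine (norm_add_le _ _).trans ((add_le_add ((norm_add_le _ _).trans
    (add_le_add (norm_add_le _ _) le_rfl)) le_rfl).trans ?_)
  simp only [norm_smul, Complex.norm_conj, Complex.norm_real, Real.norm_eq_abs]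
  have a1 := mul_le_mul_of_nonneg_left (hu true) (norm_nonneg (α l))
  have a2 := mul_le_mul_of_nonneg_left (hu false) (norm_nonneg (α l))
  have a3 := mul_le_mul_of_nonneg_left h3 (abs_nonneg (ε l))
  have a4 := mul_le_mul_of_nonneg_left (hs (some l)) (abs_nonneg (η l))
  linarith

theorem norm_Ud (c : Bool) : ‖Matrix.toEuclideanCLM (n := Fin d) (𝕜 := ℂ) (Ud d c)‖ ≤ 1 := by
  set T := Matrix.toEuclideanCLM (n := Fin d) (𝕜 := ℂ) (Ud d c) with hT
  have h : star T * T = 1 := by
    rw [hT, ← map_star, ← map_mul, Matrix.star_eq_conjTranspose, Ud_star, ← map_one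
      (Matrix.toEuclideanCLM (n := Fin d) (𝕜 := ℂ))]
    congr 1
    cases c
    exacts [Ud_tf d, Ud_ft d]
  have h2 := CStarRing.norm_star_mul_self (x := T)
  rw [h] at h2
  have h3 : ‖(1 : V d →L[ℂ] V d)‖ ≤ 1 := ContinuousLinearMap.norm_id_le
  nlinarith [norm_nonneg T]

theorem vol_affine {ι : Type} [Fintype ι] (s D : ι → ℝ) (hD : ∀ i, 0 < D i)
    (Γ : Set (EuclideanSpace ℝ ι)) : volume Γ = ENNReal.ofReal (∏ i, D i) *
      volume {b : ι → ℝ | (WithLp.toLp 2 fun i => s i + D i * b i) ∈ Γ} := by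
  classical
  have hp : 0 < ∏ i, D i := Finset.prod_pos fun i _ => hD i
  have h1 := (EuclideanSpace.volume_preserving_symm_measurableEquiv_toLp ι).symm.measure_preimage_equiv Γ
  have hdet : LinearMap.det (Matrix.toLin' (Matrix.diagonal D)) = ∏ i, D i := by
    rw [LinearMap.det_toLin', Matrix.det_diagonal]
  have h2 := Measure.addHaar_preimage_linearMap (volume : Measure (ι → ℝ))
    (f := Matrix.toLin' (Matrix.diagonal D)) (by rw [hdet]; exact hp.ne')
    ((fun h => s + h) ⁻¹' (WithLp.toLp 2 ⁻¹' Γ))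
  rw [measure_preimage_add, hdet] at h2
  have e : {b : ι → ℝ | (WithLp.toLp 2 fun i => s i + D i * b i) ∈ Γ} =
      Matrix.toLin' (Matrix.diagonal D) ⁻¹' ((fun h => s + h) ⁻¹' (WithLp.toLp 2 ⁻¹' Γ)) := by
    ext b
    have : (fun i => s i + D i * b i) = s + Matrix.toLin' (Matrix.diagonal D) b := by
      funext i; simp [Matrix.mulVec_diagonal]
    simp only [Set.mem_setOf_eq, Set.mem_preimage, this]
  rw [e, h2, ← mul_assoc, ← ENNReal.ofReal_mul hp.le, abs_of_pos (inv_pos.2 hp),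
    mul_inv_cancel₀ hp.ne', ENNReal.ofReal_one, one_mul]
  exact h1.symm

theorem exists_section {κ ι : Type} [Fintype κ] [Fintype ι] (B : Set (κ ⊕ ι → ℝ))
    (hB : (gm (κ ⊕ ι)).real B < 1 / 2) : ∃ b0 : κ → ℝ,
      ENNReal.ofReal (1 / 2) ≤ volume {b : ι → ℝ | Sum.elim b0 b ∉ B} := by
  let e := MeasurableEquiv.sumPiEquivProdPi (fun _ : κ ⊕ ι => ℝ)
  have he : MeasurePreserving e.symm ((gm κ).prod (gm ι)) (gm (κ ⊕ ι)) :=
    measurePreserving_sumPiEquivProdPi_symm (fun _ => ProbabilityTheory.gaussianReal 0 1)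
  set B' := toMeasurable (gm (κ ⊕ ι)) B
  have hS : MeasurableSet (e.symm ⁻¹' B') := e.symm.measurable (measurableSet_toMeasurable _ _)
  obtain ⟨b0, hb0⟩ := exists_le_lintegral (μ := gm κ)
    (measurable_measure_prodMk_left (ν := gm ι) hS).aemeasurable
  rw [← Measure.prod_apply hS, he.measure_preimage_equiv, measure_toMeasurable] at hb0
  refine ⟨b0, ?_⟩
  have hT : MeasurableSet (Prod.mk b0 ⁻¹' (e.symm ⁻¹' B')) := measurable_prodMk_left hS
  have h1 : (gm ι).real (Prod.mk b0 ⁻¹' (e.symm ⁻¹' B')) ≤ (gm (κ ⊕ ι)).real B :=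
    ENNReal.toReal_mono (measure_ne_top _ _) hb0
  have h2 := probReal_compl_eq_one_sub (μ := gm ι) hT
  calc ENNReal.ofReal (1 / 2) ≤ ENNReal.ofReal ((gm ι).real (Prod.mk b0 ⁻¹' (e.symm ⁻¹' B'))ᶜ) :=
        ENNReal.ofReal_le_ofReal (by linarith)
    _ = gm ι (Prod.mk b0 ⁻¹' (e.symm ⁻¹' B'))ᶜ := ofReal_measureReal (measure_ne_top _ _)
    _ ≤ volume (Prod.mk b0 ⁻¹' (e.symm ⁻¹' B'))ᶜ := gm_le_vol _ hT.compl
    _ ≤ _ := by
      refine measure_mono fun b hb hb' => hb ?_
      have : e.symm (b0, b) = Sum.elim b0 b := by funext i; cases i <;> rfl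
      simp only [Set.mem_preimage, this]
      exact subset_toMeasurable _ _ hb'

theorem model_G0 (b0 : Fin d × Fin d → ℝ) (α : Fin n → ℂ) (ε η : Fin n → ℝ) :
    ∃ s : Fin n × (Fin d × Fin d) → ℝ, ∀ b : Fin n × (Fin d × Fin d) → ℝ,
      matrixTuple (WithLp.toLp 2 fun i => s i + η i.1 * cd d * b i) =
        model (G0 (Sum.elim b0 b)) α ε η := by
  let sig : Fin n → Matrix (Fin d) (Fin d) ℂ := fun l =>
    α l • Ud d true + (starRingEnd ℂ (α l)) • Ud d false +
      (ε l : ℂ) • (Ud d true ^ (l : ℕ) * ((cd d : ℂ) • hm b0) * Ud d false ^ (l : ℕ))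
  have hs : ∀ l, (sig l).IsHermitian := by
    intro l
    simp only [sig, Matrix.IsHermitian, Matrix.conjTranspose_add, Matrix.conjTranspose_smul,
      Matrix.conjTranspose_mul, Matrix.conjTranspose_pow, Ud_star, (hm_herm b0).eq, Bool.not_true,
      Bool.not_false, Complex.star_def, Complex.conj_conj, Complex.conj_ofReal, mul_assoc]
    rw [add_comm (starRingEnd ℂ (α l) • Ud d false)]
  refine ⟨fun i => coords (sig i.1) i.2, fun b => ?_⟩
  funext l
  rw [matrixTuple_eq]
  have : (fun p => (WithLp.toLp 2 fun i : Fin n × (Fin d × Fin d) =>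
      coords (sig i.1) i.2 + η i.1 * cd d * b i) (l, p)) =
      coords (sig l) + η l • (cd d • fun p => b (l, p)) := by
    funext p; simp [mul_assoc]
  rw [this, hm_add, hm_smul, hm_smul, hm_coords (hs l)]
  rfl

theorem est (hd : 0 < d) (η : Fin n → ℝ) (hη : ∀ l, 0 < η l) (v : ENNReal)
    (hv : ENNReal.ofReal (∏ i : Fin n × (Fin d × Fin d), η i.1 * cd d) * ENNReal.ofReal (1 / 2) ≤ v) :
    ((∑ l, Real.log (η l) - Real.log 2 : ℝ) : EReal) ≤
      ((((d : ℝ) ^ 2)⁻¹ : ℝ) : EReal) * v.log + (((n : ℝ) / 2 * Real.log d : ℝ) : EReal) := by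
  have hdR : (0 : ℝ) < d := by exact_mod_cast hd
  have hc : 0 < cd d := inv_pos.2 (Real.sqrt_pos.2 hdR)
  have hp : 0 < ∏ i : Fin n × (Fin d × Fin d), η i.1 * cd d :=
    Finset.prod_pos fun i _ => mul_pos (hη _) hc
  rw [← ENNReal.ofReal_mul hp.le] at hv
  have h1 := ENNReal.log_le_log hv
  rw [ENNReal.log_ofReal_of_pos (by positivity)] at h1
  have h2 := mul_le_mul_of_nonneg_left h1
    (show (0 : EReal) ≤ ((((d : ℝ) ^ 2)⁻¹ : ℝ) : EReal) by exact_mod_cast (by positivity))
  refine le_trans ?_ (add_le_add h2 le_rfl)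
  rw [← EReal.coe_mul, ← EReal.coe_add, EReal.coe_le_coe_iff, Real.log_mul hp.ne' (by norm_num),
    Real.log_prod (fun i _ => (mul_pos (hη _) hc).ne')]
  have e1 : ∀ i : Fin n × (Fin d × Fin d), Real.log (η i.1 * cd d) =
      Real.log (η i.1) - Real.log d / 2 := by
    intro i
    rw [Real.log_mul (hη _).ne' hc.ne', cd, Real.log_inv, Real.log_sqrt hdR.le]; ring
  simp_rw [e1]
  rw [Fintype.sum_prod_type]
  simp only [Finset.sum_const, Finset.card_univ, Fintype.card_prod, Fintype.card_fin, nsmul_eq_mul,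
    ← Finset.mul_sum, Finset.sum_sub_distrib, one_div, Real.log_inv]
  push_cast
  have h3 : (1 : ℝ) ≤ d := by exact_mod_cast hd
  have h4 : ((d : ℝ) ^ 2)⁻¹ * Real.log 2 ≤ Real.log 2 :=
    mul_le_of_le_one_left (Real.log_nonneg (by norm_num)) (inv_le_one_of_one_le₀ (by nlinarith))
  have h5 : ((d : ℝ) ^ 2)⁻¹ * (d * d * (∑ l, Real.log (η l) - n * (Real.log d / 2)) +
      -Real.log 2) + n / 2 * Real.log d = ∑ l, Real.log (η l) - ((d : ℝ) ^ 2)⁻¹ * Real.log 2 := by
    field_simp; ring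
  rw [h5]; linarith

end Crest.Agent.FE.GU

namespace Crest.Agent.FE
open HM GP WK NT GU

theorem chiLower : ChiLower := by
  intro A _ _ τ n a α ε η h1 htr huv hvu h0 hSD hη
  have hG := good_all τ a (conv τ a h1 htr huv hvu h0 hSD)
  set R : ℝ := 1 + ∑ l, (2 * ‖α l‖ + 16 * (|ε l| + |η l|)) with hR
  have hR0 : 0 < R := by positivity
  refine lt_of_lt_of_le (EReal.bot_lt_coe (∑ l, Real.log (η l) - Real.log 2)) ?_
  refine le_iSup₂_of_le R hR0 (le_iInf fun m => le_iInf fun δ => le_iInf fun hδ => ?_)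
  refine le_limsup_of_frequently_le' (Eventually.frequently ?_)
  have hfin := List.finite_length_le (Fin n) m
  let B1 : ∀ d : ℕ, Option (Fin n) → Set (Ix n d → ℝ) := fun d x =>
    {b | 16 < ‖Matrix.toEuclideanCLM (n := Fin d) (𝕜 := ℂ) (G0 b (.inl x))‖}
  let B2 : ∀ d : ℕ, List (Fin n) → Set (Ix n d → ℝ) := fun d w =>
    {b | δ ≤ ‖(d : ℂ)⁻¹ * (Lam (G0 b) (wordEval (model gen α ε η) (FreeMonoid.ofList w))).trace -
      τ (Lam a (wordEval (model gen α ε η) (FreeMonoid.ofList w)))‖}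
  have hT : Tendsto (fun d => ∑ x, (gm (Ix n d)).real (B1 d x) +
      ∑ w ∈ hfin.toFinset, (gm (Ix n d)).real (B2 d w)) atTop (𝓝 0) := by
    simpa using (tendsto_finset_sum Finset.univ fun x _ => op_tendsto (n := n) x).add
      (tendsto_finset_sum hfin.toFinset fun w _ =>
        hG (wordEval (model gen α ε η) (FreeMonoid.ofList w)) δ hδ)
  filter_upwards [eventually_gt_atTop 0, hT.eventually (gt_mem_nhds (show (0 : ℝ) < 1 / 2 by norm_num))]
    with d hd hB
  obtain ⟨b0, hb0⟩ := exists_section ((⋃ x, B1 d x) ∪ ⋃ w ∈ hfin.toFinset, B2 d w)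
    (lt_of_le_of_lt ((measureReal_union_le _ _).trans (add_le_add (measureReal_iUnion_fintype_le _)
      (measureReal_biUnion_finset_le _ _))) hB)
  obtain ⟨s, hs⟩ := model_G0 b0 α ε η
  have hdR : (0 : ℝ) < d := by exact_mod_cast hd
  have hc : 0 < cd d := inv_pos.2 (Real.sqrt_pos.2 hdR)
  refine est hd η hη _ ?_
  rw [vol_affine s (fun i => η i.1 * cd d) (fun i => mul_pos (hη _) hc)]
  refine mul_le_mul_right (hb0.trans (measure_mono fun b hb => ?_)) _
  simp only [Set.mem_setOf_eq, Set.mem_union, Set.mem_iUnion, not_or, not_exists, B1, B2, not_lt,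
    not_le, Set.Finite.mem_toFinset, Lam_word] at hb
  refine ⟨fun l => ?_, fun w hw => ?_⟩
  · rw [hs]
    have e := map_model (Matrix.toEuclideanCLM (n := Fin d) (𝕜 := ℂ)).toAlgEquiv.toAlgHom
      (G0 (Sum.elim b0 b)) α ε η l
    refine le_of_eq_of_le (congrArg norm e) ((norm_model _ ContinuousLinearMap.norm_id_le
      (fun c => norm_Ud c) hb.1 α ε η l).trans ?_)
    have := Finset.single_le_sum (f := fun l => 2 * ‖α l‖ + 16 * (|ε l| + |η l|))
      (fun l _ => by positivity) (Finset.mem_univ l)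
    linarith
  · rw [hs]
    exact hb.2 w.toList hw

end Crest.Agent.FE
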