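import Crest.Agent.FE.Defs

/-! Row 89: coordinates on Hermitian matrices. -/

set_option autoImplicit false
open Crest.OpAlg

namespace Crest.Agent.FE.HM

variable {d : ℕ}

/-- Hermitian matrix with given coordinates -/
noncomputable def hm (y : Fin d × Fin d → ℝ) : Matrix (Fin d) (Fin d) ℂ :=
  hermitianOfCoords (WithLp.toLp 2 y)

theorem matrixTuple_eq {n : ℕ} (a : EuclideanSpace ℝ (Fin n × (Fin d × Fin d))) (l : Fin n) :
    matrixTuple a l = hm fun p => a (l, p) := rfl

noncomputable def al (i j : Fin d) : ℂ :=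
  if i = j then 1 else if i < j then 1 / (Real.sqrt 2 : ℂ) else -Complex.I / (Real.sqrt 2 : ℂ)

noncomputable def be (i j : Fin d) : ℂ :=
  if i = j then 0 else if i < j then Complex.I / (Real.sqrt 2 : ℂ) else 1 / (Real.sqrt 2 : ℂ)

theorem hm_apply (y : Fin d × Fin d → ℝ) (i j : Fin d) :
    hm y i j = al i j * y (i, j) + be i j * y (j, i) := by
  simp only [hm, hermitianOfCoords, al, be]
  split_ifs with h1 h2
  · subst h1; simp
  · ring
  · ring

theorem s2 : (Real.sqrt 2 : ℂ) * (Real.sqrt 2 : ℂ) = 2 := by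
  rw [← Complex.ofReal_mul, Real.mul_self_sqrt (by norm_num)]; norm_num

theorem s2ne : (Real.sqrt 2 : ℂ) ≠ 0 := by
  intro h; have := s2; rw [h] at this; norm_num at this

theorem sq_al_be {i j : Fin d} (h : i ≠ j) : al i j * al i j + be i j * be i j = 0 := by
  simp only [al, be, if_neg h]
  split_ifs
  · field_simp [s2ne]; simp
  · field_simp [s2ne]; simp

theorem cross_al_be {i j : Fin d} (h : i ≠ j) : al i j * be j i + be i j * al j i = 1 := by
  have h2 : (Real.sqrt 2 : ℂ) ^ 2 = 2 := by rw [sq, s2]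
  simp only [al, be, if_neg h, if_neg h.symm]
  rcases lt_or_gt_of_ne h with h' | h'
  · rw [if_pos h', if_pos h', if_neg (not_lt.2 h'.le), if_neg (not_lt.2 h'.le)]
    field_simp [s2ne]; rw [h2]; simp; norm_num
  · rw [if_pos h', if_pos h', if_neg (not_lt.2 h'.le), if_neg (not_lt.2 h'.le)]
    field_simp [s2ne]; rw [h2]; simp; norm_num

theorem conj_al (i j : Fin d) : starRingEnd ℂ (al i j) = if i = j then 1 else be j i := by
  simp only [al, be]
  rcases lt_trichotomy i j with h | h | h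
  · simp [h.ne, h.ne', h, not_lt.2 h.le]
  · simp [h]
  · simp [h.ne, h.ne', h, not_lt.2 h.le]

theorem conj_be (i j : Fin d) : starRingEnd ℂ (be i j) = if i = j then 0 else al j i := by
  simp only [al, be]
  rcases lt_trichotomy i j with h | h | h
  · simp [h.ne, h.ne', h, not_lt.2 h.le]
  · simp [h]
  · simp [h.ne, h.ne', h, not_lt.2 h.le]

theorem hm_herm (y : Fin d × Fin d → ℝ) : (hm y).IsHermitian := by
  ext i j
  rw [Matrix.conjTranspose_apply, hm_apply, hm_apply]
  simp only [star_add, star_mul', Complex.star_def, Complex.conj_ofReal, conj_al, conj_be]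
  by_cases h : j = i
  · subst h; simp [al, be]
  · simp only [if_neg h]; ring

theorem hm_add (y z : Fin d × Fin d → ℝ) : hm (y + z) = hm y + hm z := by
  ext i j; simp only [hm_apply, Matrix.add_apply, Pi.add_apply]; push_cast; ring

theorem hm_sub (y z : Fin d × Fin d → ℝ) : hm (y - z) = hm y - hm z := by
  ext i j; simp only [hm_apply, Matrix.sub_apply, Pi.sub_apply]; push_cast; ring

theorem hm_smul (c : ℝ) (y : Fin d × Fin d → ℝ) : hm (c • y) = (c : ℂ) • hm y := by
  ext i j; simp only [hm_apply, Matrix.smul_apply, Pi.smul_apply, smul_eq_mul]; push_cast; ring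

/-- basis matrices -/
noncomputable def Eb (a : Fin d × Fin d) : Matrix (Fin d) (Fin d) ℂ := hm (Pi.single a 1)

theorem Eb_apply (a : Fin d × Fin d) (i j : Fin d) :
    Eb a i j = (if a = (i, j) then al i j else 0) + (if a = (j, i) then be i j else 0) := by
  rw [Eb, hm_apply]
  congr 1
  · by_cases h : a = (i, j)
    · subst h; simp
    · rw [if_neg h, Pi.single_eq_of_ne (Ne.symm h)]; simp
  · by_cases h : a = (j, i)
    · subst h; simp
    · rw [if_neg h, Pi.single_eq_of_ne (Ne.symm h)]; simp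

theorem hm_eq_sum (y : Fin d × Fin d → ℝ) : hm y = ∑ a, (y a : ℂ) • Eb a := by
  ext i j
  simp only [Matrix.sum_apply, Matrix.smul_apply, Eb_apply, smul_eq_mul, mul_add, mul_ite, mul_zero,
    Finset.sum_add_distrib, Finset.sum_ite_eq', Finset.mem_univ, if_true, hm_apply]
  ring

/-- completeness of the basis -/
theorem KK (i j k l : Fin d) :
    ∑ a, Eb a i j * Eb a k l = if i = l ∧ j = k then 1 else 0 := by
  simp only [Eb_apply, add_mul, mul_add, ite_mul, zero_mul, Finset.sum_add_distrib,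
    Finset.sum_ite_eq', Finset.mem_univ, if_true, mul_ite, mul_zero, Prod.mk.injEq]
  by_cases hij : i = j
  · subst hij
    by_cases h : i = l ∧ i = k
    · obtain ⟨rfl, rfl⟩ := h; simp [al, be]
    · have h' : ¬ (i = k ∧ i = l) := fun h' => h ⟨h'.2, h'.1⟩
      have h2 : ¬ (k = i ∧ l = i) := fun h' => h ⟨h'.2.symm, h'.1.symm⟩
      have h3 : ¬ (l = i ∧ k = i) := fun h' => h ⟨h'.1.symm, h'.2.symm⟩
      simp [h, h', h2, h3]
  · by_cases h : i = l ∧ j = k
    · obtain ⟨rfl, rfl⟩ := h
      have := cross_al_be hij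
      simp [hij, Ne.symm hij]
      linear_combination this
    · by_cases h' : i = k ∧ j = l
      · obtain ⟨rfl, rfl⟩ := h'
        have := sq_al_be hij
        simp [hij, Ne.symm hij]
        linear_combination this
      · have h2 : ¬ (k = i ∧ l = j) := fun h2 => h' ⟨h2.1.symm, h2.2.symm⟩
        have h3 : ¬ (l = i ∧ k = j) := fun h2 => h ⟨h2.1.symm, h2.2.symm⟩
        have h4 : ¬ (k = j ∧ l = i) := fun h2 => h ⟨h2.2.symm, h2.1.symm⟩
        have h5 : ¬ (l = j ∧ k = i) := fun h2 => h' ⟨h2.2.symm, h2.1.symm⟩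
        have h6 : ¬ (j = k ∧ i = l) := fun h2 => h ⟨h2.2, h2.1⟩
        have h7 : ¬ (j = l ∧ i = k) := fun h2 => h' ⟨h2.2, h2.1⟩
        simp [h, h', h2, h3, h4, h5, h6, h7]

/-- coordinates of a Hermitian matrix -/
noncomputable def coords (M : Matrix (Fin d) (Fin d) ℂ) (a : Fin d × Fin d) : ℝ :=
  (Matrix.trace (Eb a * M)).re

theorem coords_eq {M : Matrix (Fin d) (Fin d) ℂ} (hM : M.IsHermitian) (a : Fin d × Fin d) :
    (coords M a : ℂ) = Matrix.trace (Eb a * M) := by
  rw [coords]
  apply Complex.conj_eq_iff_re.1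
  have h1 : (Eb a).conjTranspose = Eb a := hm_herm _
  rw [← Complex.star_def, ← Matrix.trace_conjTranspose, Matrix.conjTranspose_mul, hM.eq, h1,
    Matrix.trace_mul_comm]

theorem hm_coords {M : Matrix (Fin d) (Fin d) ℂ} (hM : M.IsHermitian) : hm (coords M) = M := by
  rw [hm_eq_sum]
  ext i j
  simp only [coords_eq hM, Matrix.sum_apply, Matrix.smul_apply, smul_eq_mul, Matrix.trace,
    Matrix.diag_apply, Matrix.mul_apply, Finset.sum_mul]
  have : ∀ k l, ∑ a, Eb a k l * M l k * Eb a i j = (if k = j ∧ l = i then 1 else 0) * M l k := by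
    intro k l
    rw [← KK, Finset.sum_mul]
    exact Finset.sum_congr rfl fun a _ => by ring
  rw [Finset.sum_comm]
  simp_rw [Finset.sum_comm (s := (Finset.univ : Finset (Fin d × Fin d))), this]
  rw [Finset.sum_eq_single j, Finset.sum_eq_single i] <;> simp +contextual

theorem hm_mul_hm (y : Fin d × Fin d → ℝ) (i j : Fin d) :
    hm y i j * hm y j i = ((y (i, j) ^ 2 + y (j, i) ^ 2) / 2 : ℝ) := by
  have h2 : (Real.sqrt 2 : ℂ) ^ 2 = 2 := by rw [sq, s2]
  simp only [hm_apply, al, be]
  push_cast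
  rcases lt_trichotomy i j with h | h | h
  · simp only [h.ne, h.ne', h, not_lt.2 h.le, if_true, if_false]
    field_simp [s2ne]; rw [h2]
    linear_combination (-2 * (y (j, i) : ℂ) ^ 2) * Complex.I_sq
  · subst h; simp; ring
  · simp only [h.ne, h.ne', h, not_lt.2 h.le, if_true, if_false]
    field_simp [s2ne]; rw [h2]
    linear_combination (-2 * (y (i, j) : ℂ) ^ 2) * Complex.I_sq

theorem trace_hm_sq (y : Fin d × Fin d → ℝ) :
    Matrix.trace (hm y * hm y) = ((∑ a, y a ^ 2 : ℝ) : ℂ) := by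
  simp only [Matrix.trace, Matrix.diag_apply, Matrix.mul_apply, hm_mul_hm]
  rw [Fintype.sum_prod_type]
  have : ∑ i, ∑ j, y (j, i) ^ 2 = ∑ i, ∑ j, y (i, j) ^ 2 := Finset.sum_comm
  have e : ∑ i, ∑ j, (y (i, j) ^ 2 + y (j, i) ^ 2) / 2 = ∑ i, ∑ j, y (i, j) ^ 2 := by
    simp_rw [← Finset.sum_div, Finset.sum_add_distrib]
    rw [this]; ring
  rw [← e]; push_cast; rfl

end Crest.Agent.FE.HM
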