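import Crest.Agent.FE.Star

/-! Row 89: parameters and assembly. -/

set_option autoImplicit false
set_option linter.unusedSectionVars false
open scoped InnerProductSpace ENNReal
open Crest.OpAlg Finset MeasureTheory

namespace Crest.Agent.FE

section Pow
variable {A : Type*} [NormedRing A] [NormOneClass A]

theorem pow_close {p u : A} {θ : ℝ} (hu : ‖u‖ ≤ 1) (h : ‖p - u‖ ≤ θ) (j : ℕ) (hj : 2 * j * θ ≤ 1) :
    ‖p ^ j - u ^ j‖ ≤ 2 * j * θ := by
  have h0 : 0 ≤ θ := (norm_nonneg _).trans h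
  induction j with
  | zero => simp
  | succ j ih =>
    push_cast at hj ⊢
    have h1 := ih (by nlinarith)
    have h2 : ‖u ^ j‖ ≤ 1 := (norm_pow_le _ _).trans (pow_le_one₀ (norm_nonneg _) hu)
    have h3 : ‖p ^ j‖ ≤ 2 := by
      have := norm_add_le (p ^ j - u ^ j) (u ^ j)
      rw [sub_add_cancel] at this; nlinarith
    rw [show p ^ (j + 1) - u ^ (j + 1) = p ^ j * (p - u) + (p ^ j - u ^ j) * u by noncomm_ring]
    refine (norm_add_le _ _).trans ((add_le_add (norm_mul_le _ _) (norm_mul_le _ _)).trans ?_)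
    have h4 : ‖p ^ j‖ * ‖p - u‖ ≤ 2 * θ := by gcongr
    have h5 : ‖p ^ j - u ^ j‖ * ‖u‖ ≤ 2 * j * θ * 1 := by gcongr
    linarith

theorem conj_close {p u q w x : A} {θ : ℝ} (hu : ‖u‖ ≤ 1) (h : ‖p - u‖ ≤ θ) (hw : ‖w‖ ≤ 1)
    (h' : ‖q - w‖ ≤ θ) (hx : ‖x‖ ≤ 1) (j : ℕ) (hj : 2 * j * θ ≤ 1) :
    ‖u ^ j * x * w ^ j - p ^ j * x * q ^ j‖ ≤ 6 * j * θ := by
  have h0 : 0 ≤ θ := (norm_nonneg _).trans h
  have h1 := pow_close hu h j hj
  have h1' := pow_close hw h' j hj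
  have h2 : ‖u ^ j‖ ≤ 1 := (norm_pow_le _ _).trans (pow_le_one₀ (norm_nonneg _) hu)
  have h2' : ‖w ^ j‖ ≤ 1 := (norm_pow_le _ _).trans (pow_le_one₀ (norm_nonneg _) hw)
  have h3 : ‖p ^ j‖ ≤ 2 := by
    have := norm_add_le (p ^ j - u ^ j) (u ^ j)
    rw [sub_add_cancel] at this; nlinarith
  rw [norm_sub_rev, show p ^ j * x * q ^ j - u ^ j * x * w ^ j =
    p ^ j * x * (q ^ j - w ^ j) + (p ^ j - u ^ j) * x * w ^ j by noncomm_ring]
  refine (norm_add_le _ _).trans ((add_le_add norm_mul₃_le norm_mul₃_le).trans ?_)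
  have h4 : ‖p ^ j‖ * ‖x‖ * ‖q ^ j - w ^ j‖ ≤ 2 * 1 * (2 * j * θ) := by gcongr
  have h5 : ‖p ^ j - u ^ j‖ * ‖x‖ * ‖w ^ j‖ ≤ 2 * j * θ * 1 * 1 := by gcongr
  linarith

end Pow

section Par
variable {n : ℕ}

noncomputable def αf (e : ℝ) (l : Fin n) : ℂ :=
  if l.1 = 0 then e / 2 else if l.1 = 1 then -(Complex.I * e / 2) else 0
noncomputable def εf (g : ℝ) (l : Fin n) : ℝ := if l.1 < 2 then 0 else g
noncomputable def ηf (e θ g : ℝ) (l : Fin n) : ℝ := if l.1 < 2 then e * θ else if l.1 = 2 then g / 10 else 1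
noncomputable def rf (e g : ℝ) (l : Fin n) : ℝ :=
  if l.1 < 2 then 3 * e else if l.1 = 2 then 2 * g else 1 + g ^ 2 / 100

noncomputable def FF {A : Type*} [Ring A] [Algebra ℂ A] (h : 3 ≤ n) (e : ℝ) (Y : Fin n → A)
    (l : Fin n) : A :=
  if l.1 < 3 then 0 else ((e : ℂ)⁻¹ • (Y ⟨0, by omega⟩ + Complex.I • Y ⟨1, by omega⟩)) ^ (l.1 - 2) *
    Y ⟨2, h⟩ * ((e : ℂ)⁻¹ • (Y ⟨0, by omega⟩ - Complex.I • Y ⟨1, by omega⟩)) ^ (l.1 - 2)

theorem map_FF {A B : Type*} [Ring A] [Algebra ℂ A] [Ring B] [Algebra ℂ B] (φ : A →ₐ[ℂ] B) (h : 3 ≤ n)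
    (e : ℝ) (Y : Fin n → A) (l : Fin n) : φ (FF h e Y l) = FF h e (fun i => φ (Y i)) l := by
  unfold FF; split_ifs <;> simp

theorem eval_FF {A : Type*} [Ring A] [Algebra ℂ A] (h : 3 ≤ n) (e : ℝ) (Y : Fin n → A) (l : Fin n) :
    polyEval Y (FF h e (fun i => MonoidAlgebra.single (FreeMonoid.of i) 1) l) = FF h e Y l := by
  rw [polyEval, map_FF]; simp

theorem star_FF {A : Type*} [Ring A] [Algebra ℂ A] [StarRing A] [StarModule ℂ A] (h : 3 ≤ n) (e : ℝ)
    {Y : Fin n → A} (hY : ∀ i, star (Y i) = Y i) (l : Fin n) : star (FF h e Y l) = FF h e Y l := by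
  unfold FF; split_ifs
  · simp
  · simp [hY, mul_assoc, sub_eq_add_neg]

end Par

namespace Fock
variable {H : Type} {n : ℕ} [NormedAddCommGroup H] [InnerProductSpace ℂ H]
  [CompleteSpace H] (F : Fock (Lam n) H) {e θ g : ℝ}

theorem norm_sΩ (x : Lam n) (p : ℤ) : ‖F.s x (F.U p F.Ω)‖ = 1 := by
  simp [s, F.lΩ, F.norm_l, F.norm_U, F.norm_Ω]

theorem close (h : 3 ≤ n) (he : 0 < e) (hθ : 0 < θ) (hθ1 : θ ≤ 1) (hg : 0 < g) (hg1 : g ≤ 1 / 3)
    (hn : 24 * n * θ < g ^ 2 / 200) (l : Fin n) :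
    ‖(model F.gen (αf e) (εf g) (ηf e θ g) l -
      FF h e (model F.gen (αf e) (εf g) (ηf e θ g)) l : F.alg).1 F.Ω‖ < rf e g l := by
  have hs0 : ∀ x, ‖F.s x F.Ω‖ = 1 := fun x => by simpa [F.U_zero] using F.norm_sΩ x 0
  have hU : ∀ p, ‖F.U p F.Ω‖ = 1 := fun p => by rw [F.norm_U, F.norm_Ω]
  haveI : Nontrivial H := ⟨⟨F.Ω, 0, fun h => by simpa [h] using F.norm_Ω⟩⟩
  rw [show (model F.gen (αf e) (εf g) (ηf e θ g) l -
      FF h e (model F.gen (αf e) (εf g) (ηf e θ g)) l : F.alg).1 = _ - _ from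
    congrArg₂ (· - ·) rfl (map_FF F.alg.subtype.toAlgHom h e _ l)]
  change ‖((model F.gen (αf e) (εf g) (ηf e θ g) l).1 -
    FF h e (fun i => (model F.gen (αf e) (εf g) (ηf e θ g) i).1) l) F.Ω‖ < _
  by_cases h3 : l.1 < 3
  · rw [FF, if_pos h3, sub_zero, coe_model]
    simp only [ContinuousLinearMap.add_apply, ContinuousLinearMap.smul_apply,
      ContinuousLinearMap.mul_apply]
    refine lt_of_le_of_lt (norm_add_le_of_le (norm_add_le_of_le (norm_add_le _ _) le_rfl) le_rfl) ?_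
    simp only [norm_smul, hU, hs0, F.norm_U, F.norm_sΩ, mul_one, Complex.norm_conj, Complex.norm_real]
    have : l.1 = 0 ∨ l.1 = 1 ∨ l.1 = 2 := by omega
    have := mul_le_of_le_one_right he.le hθ1
    rcases ‹_ ∨ _› with h' | h' | h' <;>
      simp [αf, εf, ηf, rf, h', abs_of_pos he, abs_of_pos hθ, abs_of_pos hg, abs_div] <;> linarith
  · have he' : (e : ℂ) ≠ 0 := by exact_mod_cast he.ne'
    have c0 : ∀ (a : ℂ) (x y : Lam n), ‖a‖ = 1 → ‖(θ : ℂ) • (F.s x + a • F.s y)‖ ≤ 4 * θ := by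
      intro a x y ha
      rw [norm_smul, Complex.norm_real, Real.norm_of_nonneg hθ.le, mul_comm]
      gcongr
      refine (norm_add_le _ _).trans ?_
      rw [norm_smul, ha]; linarith [F.opn_s x, F.opn_s y]
    obtain ⟨j, hj⟩ : ∃ j, l.1 = j + 2 := ⟨l.1 - 2, by omega⟩
    have hjn : (j : ℝ) ≤ n := by exact_mod_cast (by omega : j ≤ n)
    have hjθ : (j : ℝ) * θ ≤ n * θ := by gcongr
    set X := fun i => (model F.gen (αf e) (εf g) (ηf e θ g) i).1 with hX
    have x2 : X ⟨2, h⟩ = (g : ℂ) • (F.U 2 * F.s (.inl none) * F.U (-2)) +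
        ((g / 10 : ℝ) : ℂ) • F.s (.inl (some ⟨2, h⟩)) := by simp [-Complex.coe_smul, hX, coe_model, αf, εf, ηf]
    have key := conj_close (u := F.U 1) (w := F.U (-1)) (x := X ⟨2, h⟩) (θ := 4 * θ)
      (p := (e : ℂ)⁻¹ • (X ⟨0, by omega⟩ + Complex.I • X ⟨1, by omega⟩))
      (q := (e : ℂ)⁻¹ • (X ⟨0, by omega⟩ - Complex.I • X ⟨1, by omega⟩)) (F.opn_U _)
      (by
        refine le_trans (le_of_eq (congrArg norm ?_))
          (c0 Complex.I (.inl (some ⟨0, by omega⟩)) (.inl (some ⟨1, by omega⟩)) (by simp))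
        simp only [hX, coe_model, αf, εf, ηf]
        simp [-Complex.coe_smul]
        match_scalars <;> field_simp <;> simp [Complex.ext_iff, sq] <;> norm_num)
      (F.opn_U _)
      (by
        refine le_trans (le_of_eq (congrArg norm ?_))
          (c0 (-Complex.I) (.inl (some ⟨0, by omega⟩)) (.inl (some ⟨1, by omega⟩)) (by simp))
        simp only [hX, coe_model, αf, εf, ηf]
        simp [-Complex.coe_smul]
        match_scalars <;> field_simp <;> simp [Complex.ext_iff, sq] <;> norm_num)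
      (by
        rw [x2]
        refine (norm_add_le _ _).trans ?_
        rw [norm_smul, norm_smul, Complex.norm_real, Complex.norm_real, Real.norm_of_nonneg hg.le,
          Real.norm_of_nonneg (by positivity)]
        have h1 : ‖F.U 2 * F.s (.inl none) * F.U (-2)‖ ≤ 1 * 2 * 1 :=
          norm_mul₃_le.trans (by gcongr; exacts [F.opn_U _, F.opn_s _, F.opn_U _])
        nlinarith [F.opn_s (.inl (some ⟨2, h⟩))])
      j (by nlinarith)
    unfold FF
    rw [if_neg h3, show l.1 - 2 = j by omega, ← sub_add_sub_cancel _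
      (F.U 1 ^ j * X ⟨2, h⟩ * F.U (-1) ^ j), ContinuousLinearMap.add_apply]
    refine lt_of_le_of_lt (norm_add_le_of_le (r₁ := 1 + g ^ 2 / 200) ?_
      ((ContinuousLinearMap.le_opNorm _ _).trans (mul_le_mul_of_nonneg_right key (norm_nonneg _)))) ?_
    · have : ((model F.gen (αf e) (εf g) (ηf e θ g) l).1 - F.U 1 ^ j * X ⟨2, h⟩ * F.U (-1) ^ j) F.Ω =
          F.l (.inl (some l)) F.Ω - ((g / 10 : ℝ) : ℂ) • F.U j (F.l (.inl (some ⟨2, h⟩)) (F.U (-j) F.Ω)) := by
        have e1 : ((l.1 : ℕ) : ℤ) = j + 2 := by omega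
        rw [x2, coe_model, U_pow, U_pow, e1]
        simp [αf, εf, ηf, show l.1 ≠ 0 by omega, show l.1 ≠ 1 by omega, show l.1 ≠ 2 by omega,
          show ¬ l.1 < 2 by omega, F.UU, s, F.lΩ, F.sl_Ω, add_comm]
      rw [this]
      refine (pow_le_pow_iff_left₀ (norm_nonneg _) (by positivity) two_ne_zero).1 ?_
      rw [@norm_sub_sq ℂ, inner_smul_right, ← inner_star, F.llp, if_neg (fun h' => by
        have := congrArg Fin.val (Option.some.inj (Sum.inl.inj h'.1)); simp at this; omega),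
        norm_smul, F.norm_U, F.norm_l, F.norm_l, hU, F.norm_Ω, Complex.norm_real,
        Real.norm_of_nonneg (by positivity)]
      simp only [inner_zero_right, mul_zero, map_zero]
      nlinarith [sq_nonneg (g ^ 2)]
    · rw [rf, if_neg (by omega), if_neg (by omega), F.norm_Ω]
      nlinarith

theorem chi_le (hU : ChiUpper) (h : 3 ≤ n) (he : 0 < e) (hθ : 0 < θ) (hθ1 : θ ≤ 1) (hg : 0 < g)
    (hg1 : g ≤ 1 / 3) (hn : 24 * n * θ < g ^ 2 / 200) :
    chi F.τ (model F.gen (αf e) (εf g) (ηf e θ g)) ≤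
      ((∑ l : Fin n, 1 / 2 * Real.log (2 * Real.pi * Real.exp 1 * rf e g l ^ 2) : ℝ) : EReal) := by
  refine hU F.alg F.τ n _ {l | l.1 < 3} (FF h e fun i => MonoidAlgebra.single (FreeMonoid.of i) 1) _
    (fun l hl => if_pos hl) (fun l d Y Y' hY => ?_) (fun l d Y hY => ?_) (fun l => ?_) fun l => ?_
  · rw [eval_FF, eval_FF, FF, FF, hY ⟨0, by omega⟩ (by simp), hY ⟨1, by omega⟩ (by simp),
      hY ⟨2, by omega⟩ (by simp)]
  · rw [eval_FF]; exact star_FF h e hY l
  · unfold rf; split_ifs <;> positivity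
  · rw [eval_FF, F.τ_sq (by rw [star_sub, star_model, star_FF h e (F.star_model _ _ _)]),
      Complex.ofReal_re]
    exact pow_lt_pow_left₀ (F.close h he hθ hθ1 hg hg1 hn l) (norm_nonneg _) two_ne_zero

end Fock

theorem final_ineq {n : ℕ} (hn : (n : ℝ) = 10 ^ 10) {e θ g : ℝ} (he : 0 < e) (hθ : θ = 1 / 10 ^ 20)
    (hg : g = 1 / 1000) : ∑ l : Fin n, 1 / 2 * Real.log (2 * Real.pi * Real.exp 1 * rf e g l ^ 2) ≤
      n / 2 * Real.log (2 * Real.pi * Real.exp 1) + 1 / 2 * (∑ l : Fin n, Real.log (ηf e θ g l ^ 2) +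
        (univ.filter fun l : Fin n => ¬ l.1 < 3).card * (g ^ 2 / 20)) - 1 / 2 := by
  have l2 := Real.log_two_lt_d9
  have key : ∀ l : Fin n, 1 / 2 * Real.log (2 * Real.pi * Real.exp 1 * rf e g l ^ 2) ≤
      1 / 2 * Real.log (2 * Real.pi * Real.exp 1) + 1 / 2 * (Real.log (ηf e θ g l ^ 2) +
        if ¬ l.1 < 3 then g ^ 2 / 20 else 0) - 15 / 10 ^ 9 + if l.1 < 3 then 49 else 0 := by
    intro l
    have hr : 0 < rf e g l := by unfold rf; split_ifs <;> positivity
    rw [Real.log_mul (by positivity) (by positivity), Real.log_pow, Real.log_pow]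
    unfold rf ηf
    by_cases h2 : l.1 < 2
    · have : Real.log (3 * e) ≤ Real.log (e * θ) + 69 * Real.log 2 := by
        rw [show 69 * Real.log 2 = Real.log (2 ^ 69) by rw [Real.log_pow]; norm_num,
          ← Real.log_mul (by positivity) (by positivity)]
        exact Real.log_le_log (by positivity) (by rw [hθ]; nlinarith)
      simp only [h2, show l.1 < 3 by omega, if_true, not_true, if_false]; push_cast; linarith
    · by_cases h3 : l.1 = 2
      · have : Real.log (2 * g) ≤ Real.log (g / 10) + 5 * Real.log 2 := by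
          rw [show 5 * Real.log 2 = Real.log (2 ^ 5) by rw [Real.log_pow]; norm_num,
            ← Real.log_mul (by positivity) (by positivity)]
          exact Real.log_le_log (by positivity) (by rw [hg]; norm_num)
        simp only [h2, h3, show l.1 < 3 by omega, if_true, not_true, if_false]
        norm_num; linarith
      · have := Real.log_le_sub_one_of_pos (show 0 < 1 + g ^ 2 / 100 by positivity)
        simp only [h2, h3, show ¬ l.1 < 3 by omega, if_true, not_false_eq_true, if_false, Real.log_one]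
        push_cast; rw [hg] at *; linarith
  refine (sum_le_sum fun l _ => key l).trans ?_
  have hc : ((univ.filter fun l : Fin n => l.1 < 3).card : ℝ) ≤ 3 := by
    rw [Fin.card_filter_val_lt]; exact_mod_cast min_le_right _ _
  simp only [sum_add_distrib, sum_sub_distrib, ← mul_sum, ← sum_filter, sum_const, card_univ,
    Fintype.card_fin, nsmul_eq_mul, hn]
  linarith

theorem main (hU : ChiUpper) (hL : ChiLower) :
    ∃ (A : Type) (_ : CStarAlgebra A) (τ : A →ₗ[ℂ] ℂ) (n : ℕ) (X S : Fin n → A),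
      IsFaithfulTracialState τ ∧ 2 ≤ n ∧ (∀ i, IsSelfAdjoint (X i)) ∧
      IsStandardSemicircular τ S ∧ IsFreeFamily τ (withNoise X S) ∧
      (∀ s : ℝ, 0 < s → freeFisher τ (heatTuple X S s) < ⊤) ∧
      IntegrableOn (fun s : ℝ => (n : ℝ) / (1 + s) - (freeFisher τ (heatTuple X S s)).toReal)
        (Set.Ioi 0) ∧
      ⊥ < chi τ X ∧ chi τ X ≤ ((chiStar τ X S - 1 / 2 : ℝ) : EReal) := by
  obtain ⟨n, hn⟩ : ∃ n : ℕ, (n : ℝ) = 10 ^ 10 := ⟨10 ^ 10, by norm_num⟩
  obtain ⟨e, he⟩ : ∃ e : ℝ, e = 1 / 10 ^ 14 := ⟨_, rfl⟩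
  obtain ⟨θ, hθ⟩ : ∃ e : ℝ, e = 1 / 10 ^ 20 := ⟨_, rfl⟩
  obtain ⟨g, hg⟩ : ∃ e : ℝ, e = 1 / 1000 := ⟨_, rfl⟩
  have h3 : 3 ≤ n := by exact_mod_cast (show (3 : ℝ) ≤ n by rw [hn]; norm_num)
  have e0 : 0 < e := by positivity
  let F := FockM.model (Lam n)
  have hη : ∀ l : Fin n, 0 < ηf e θ g l := fun l => by unfold ηf; split_ifs <;> positivity
  obtain ⟨C, hC, lo⟩ := F.fisher_low (αf e) (εf g) (η := ηf e θ g)
  have hα : ∑ j : Fin n, ‖αf e j‖ ^ 2 ≤ e ^ 2 := by
    refine (sum_le_sum (g := fun j : Fin n => if j.1 < 2 then e ^ 2 / 4 else 0) fun j _ => ?_).trans ?_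
    · unfold αf; split_ifs <;> first | omega | simp [div_pow, abs_of_pos e0]; done | (simp [div_pow]; norm_num)
    · have hc : ((univ.filter fun l : Fin n => l.1 < 2).card : ℝ) ≤ 2 := by
        rw [Fin.card_filter_val_lt]; exact_mod_cast min_le_right _ _
      rw [← sum_filter, sum_const, nsmul_eq_mul]; nlinarith [sq_nonneg e]
  obtain ⟨i1, i2⟩ := star_bound (F.meas_ZZ (αf e) (εf g)) (fun i => pow_pos (hη i) 2) hC
    (fun s hs => F.fisher_triv (αf e) (εf g) hη hs) lo fun s hs =>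
      F.fisher_imp (αf e) (εf g) hη (γ := g ^ 2) (by omega)
        (fun j k => by unfold εf; split_ifs <;> simp [sq, mul_self_nonneg]) hα e0.le
        (by rw [hn, hg]; norm_num) (by rw [hn, he]; norm_num) (by rw [hn, he]; norm_num)
        (by rw [hg]; norm_num) (univ.filter fun l : Fin n => ¬ l.1 < 3) (fun i hi => by
          have := (mem_filter.1 hi).2
          rw [εf, ηf, if_neg (by omega), if_neg (by omega), if_neg (by omega)]; simp) hs
  refine ⟨F.alg, inferInstance, F.τ, n, model F.gen (αf e) (εf g) (ηf e θ g), F.SS, F.isTrace, by omega,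
    F.star_model _ _ _, F.semi_SS, F.free_model _ _ _,
    fun s hs => (F.fisher_triv (αf e) (εf g) hη hs.le).trans_lt ENNReal.ofReal_lt_top, i1,
    F.chi_gt _ _ _ hL hη, (F.chi_le hU h3 e0 (by positivity) (by rw [hθ]; norm_num) (by positivity)
      (by rw [hg]; norm_num) (by rw [hn, hθ, hg]; norm_num)).trans (EReal.coe_le_coe_iff.2 ?_)⟩
  refine (final_ineq hn e0 hθ hg).trans ?_
  unfold chiStar
  gcongr
  exact i2

end Crest.Agent.FE
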