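import Crest.Agent.FE.Fish
import Crest.Agent.FE.Boot

/-! Row 89: the model tuple in the Fock algebra and its heat flow. -/

set_option autoImplicit false
set_option linter.unusedSectionVars false
open scoped InnerProductSpace ENNReal
open Crest.OpAlg Finset

namespace Crest.Agent.FE

abbrev Lam (n : ℕ) := Option (Fin n) ⊕ Fin n

namespace Fock
variable {H : Type} {n : ℕ} [NormedAddCommGroup H] [InnerProductSpace ℂ H]
  [CompleteSpace H] (F : Fock (Lam n) H)

noncomputable def gen : Gen n → F.alg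
  | .inl x => ⟨F.s (.inl x), F.s_mem _⟩
  | .inr true => ⟨F.U 1, F.U_mem _⟩
  | .inr false => ⟨F.U (-1), F.U_mem _⟩

noncomputable def SS (i : Fin n) : F.alg := ⟨F.s (.inr i), F.s_mem _⟩

theorem U_pow (p : ℤ) (k : ℕ) : F.U p ^ k = F.U (k * p) := by
  induction k with
  | zero => simp [F.U_zero]
  | succ k ih => rw [pow_succ, ih, ← F.U_add]; congr 1; push_cast; ring

theorem coe_list {α : Type} (a : α → F.alg) (Q : List α) :
    ((Q.map a).prod : F.alg).1 = (Q.map fun i => (a i).1).prod :=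
  (map_list_prod F.alg.subtype (Q.map a)).trans (by rw [List.map_map]; rfl)

variable (α : Fin n → ℂ) (ε η : Fin n → ℝ)

theorem chi_gt (h : ChiLower) (hη : ∀ l, 0 < η l) : ⊥ < chi F.τ (model F.gen α ε η) := by
  refine h F.alg F.τ n F.gen α ε η F.t0_one F.isTrace.2.2.2 (Subtype.ext ?_) (Subtype.ext ?_) ?_ ?_ hη
  · exact (F.U_add _ _).symm.trans F.U_zero
  · exact (F.U_add _ _).symm.trans F.U_zero
  · intro b p
    cases b
    · exact (congrArg F.t0 (F.U_pow (-1) (p + 1))).trans (F.UΩ _ (by omega))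
    · exact (congrArg F.t0 (F.U_pow 1 (p + 1))).trans (F.UΩ _ (by omega))
  · intro x Q
    have := F.sd_list (star (F.r (.inl x))) (F.srΩ _) (fun i => (F.gen i).1) (.inl x) 1 (fun i v => by
      rcases i with y | _ | _
      · simp only [gen, F.srs, one_mul, Sum.inl.injEq, eq_comm]
      · simp [gen, F.srU]
      · simp [gen, F.srU]) Q
    rw [star_star, F.rΩ, ← F.s_Ω, one_mul, ← F.star_s, inner_star'] at this
    simp only [τ_apply, coe_list, ← this]
    rw [← coe_list]; rfl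

theorem coe_model (l : Fin n) : (model F.gen α ε η l).1 = α l • F.U 1 + starRingEnd ℂ (α l) • F.U (-1) +
    (ε l : ℂ) • (F.U l * F.s (.inl none) * F.U (-l)) + (η l : ℂ) • F.s (.inl (some l)) := by
  have h1 := F.U_pow 1 l
  have h2 := F.U_pow (-1) l
  rw [mul_one] at h1
  rw [mul_neg_one] at h2
  rw [← h1, ← h2]; rfl

theorem star_model (l : Fin n) : star (model F.gen α ε η l) = model F.gen α ε η l := by
  refine Subtype.ext ?_
  rw [show (star (model F.gen α ε η l)).1 = star (model F.gen α ε η l).1 from rfl, coe_model]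
  simp only [star_add, star_smul, star_mul, F.star_U, F.star_s, neg_neg, Complex.star_def,
    Complex.conj_ofReal, Complex.conj_conj, mul_assoc]
  abel

theorem star_SS (l : Fin n) : star (F.SS l) = F.SS l := Subtype.ext (F.star_s _)

theorem free_model : IsFreeFamily F.τ (withNoise (model F.gen α ε η) F.SS) := by
  refine isFree F _ fun t i => ?_
  cases t with
  | some j => exact F.s_Mu (hEt F _) rfl
  | none =>
    have hU : ∀ p, F.U p ∈ F.Mu (Pt none) (Gt (n := n) none) (Et F none) := fun p => F.U_Mu trivial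
    have hs : ∀ x, F.s (.inl x) ∈ F.Mu (Pt none) (Gt (n := n) none) (Et F none) :=
      fun x => F.s_Mu (hEt F _) ⟨x, rfl⟩
    change (model F.gen α ε η i).1 ∈ _
    rw [coe_model]
    exact add_mem (add_mem (add_mem (Subalgebra.smul_mem _ (hU _) _) (Subalgebra.smul_mem _ (hU _) _))
      (Subalgebra.smul_mem _ (mul_mem (mul_mem (hU _) (hs _)) (hU _)) _)) (Subalgebra.smul_mem _ (hs _) _)

theorem semi_SS : IsStandardSemicircular F.τ F.SS :=
  ⟨F.star_SS, fun i k => F.moments (.inr i) k⟩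

theorem sr_X {y : Lam n} (hy : y ≠ .inl none) (j : Fin n) (v : H) :
    star (F.r y) ((model F.gen α ε η j).1 v) = (model F.gen α ε η j).1 (star (F.r y) v) +
      if y = .inl (some j) then ((η j : ℂ) * ⟪F.Ω, v⟫_ℂ) • F.Ω else 0 := by
  simp only [coe_model, ContinuousLinearMap.add_apply, ContinuousLinearMap.smul_apply,
    ContinuousLinearMap.mul_apply, map_add, map_smul, F.srU, F.srs, if_neg hy, add_zero, smul_add]
  split_ifs <;> simp [smul_smul, add_assoc]

noncomputable def ZZ (s : ℝ) : Fin n → F.alg := heatTuple (model F.gen α ε η) F.SS s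

theorem coe_ZZ (s : ℝ) (j : Fin n) :
    (F.ZZ α ε η s j).1 = (model F.gen α ε η j).1 + (√s : ℂ) • F.s (.inr j) := rfl

theorem star_ZZ (s : ℝ) (l : Fin n) : star (F.ZZ α ε η s l) = F.ZZ α ε η s l := by
  simp [ZZ, heatTuple, star_model, star_SS]

noncomputable def comb (s : ℝ) (m : Lam n → H →L[ℂ] H) (i : Fin n) : H →L[ℂ] H :=
  ((√(η i ^ 2 + s) : ℝ) : ℂ)⁻¹ • ((η i : ℂ) • m (.inl (some i)) + (√s : ℂ) • m (.inr i))

variable {η} (hη : ∀ l, 0 < η l) {s : ℝ} (hs : 0 ≤ s)

theorem sq_σ (hs : 0 ≤ s) (i : Fin n) :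
    ((√(η i ^ 2 + s) : ℝ) : ℂ) ^ 2 = (η i : ℂ) ^ 2 + (√s : ℂ) ^ 2 := by
  have h1 := Real.sq_sqrt hs
  have h2 := Real.sq_sqrt (show 0 ≤ η i ^ 2 + s by positivity)
  exact_mod_cast (show √(η i ^ 2 + s) ^ 2 = η i ^ 2 + √s ^ 2 by rw [h1, h2])

noncomputable def bs : BS n H where
  Ω := F.Ω
  U := F.U
  L x := x.elim (F.l (.inl none)) (comb η s F.l)
  σ i := √(η i ^ 2 + s)
  ε := ε
  α := α
  U_zero := F.U_zero
  U_add := F.U_add
  star_U := F.star_U
  ll x y p v := by
    rcases x with _ | x <;> rcases y with _ | y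
    · simp [F.llp]
    · simp [comb, F.llp]
    · simp [comb, F.llp]
    · have h0 : ((√(η x ^ 2 + s) : ℝ) : ℂ) ≠ 0 := by
        have := hη x; exact_mod_cast (Real.sqrt_pos.2 (by positivity)).ne'
      have h1 := sq_σ (η := η) hs x
      simp only [Option.elim, comb, star_smul, star_add, ContinuousLinearMap.add_apply,
        ContinuousLinearMap.smul_apply, map_add, map_smul, F.llp, star_inv₀, Complex.star_def,
        Complex.conj_ofReal, Sum.inl.injEq, Sum.inr.injEq, reduceCtorEq, false_and, if_false,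
        Option.some.injEq]
      split_ifs with h
      · obtain ⟨rfl, -⟩ := h
        simp only [smul_zero, add_zero, zero_add, smul_add, smul_smul, ← add_smul]
        rw [show _ = (1 : ℂ) • v from congrArg (· • v) (by field_simp; linear_combination -h1), one_smul]
      · simp
  lΩ x p := by rcases x with _ | x <;> simp [comb, F.lΩ]
  σ_pos i := by have := hη i; exact Real.sqrt_pos.2 (by positivity)

theorem bs_Z (j : Fin n) : (F.bs α ε hη hs).Z j = (F.ZZ α ε η s j).1 := by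
  have h0 := (F.bs α ε hη hs).σ_ne j
  have : ((F.bs α ε hη hs).σ j : ℂ) • (F.bs α ε hη hs).L (some j) =
      (η j : ℂ) • F.l (.inl (some j)) + (√s : ℂ) • F.l (.inr j) := smul_inv_smul₀ h0 _
  rw [BS.Z, BS.cre, this, coe_ZZ, coe_model]
  simp only [bs, Option.elim, star_add, star_smul, star_mul, F.star_U, neg_neg, Complex.star_def,
    Complex.conj_ofReal, Fock.s, mul_add, add_mul, smul_add, mul_assoc]
  abel

theorem split_T (i : Fin n) (P : NCPoly n) : ‖splitPairing F.τ (F.ZZ α ε η s) i P‖ ≤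
    ‖(F.bs α ε hη hs).T i 0 ((polyEval (F.ZZ α ε η s) P).1 F.Ω)‖ := by
  have h0 : ((√(η i ^ 2 + s) : ℝ) : ℂ) ≠ 0 := (F.bs α ε hη hs).σ_ne i
  have h1 := sq_σ (η := η) hs i
  rw [F.split_eq _ i (((√(η i ^ 2 + s) : ℝ) : ℂ)⁻¹ • star (comb η s F.r i)) (by simp [comb, F.srΩ])]
  · have : star (((√(η i ^ 2 + s) : ℝ) : ℂ)⁻¹ • star (comb η s F.r i)) F.Ω =
        star ((F.bs α ε hη hs).T i 0) F.Ω := by
      simp [BS.T, BS.A, bs, comb, F.U_zero, F.rΩ]
    rw [this, inner_star']
    exact (norm_inner_le_norm _ _).trans (by rw [F.norm_Ω, one_mul])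
  · intro j v
    simp only [comb, star_smul, star_add, ContinuousLinearMap.add_apply, coe_ZZ,
      ContinuousLinearMap.smul_apply, map_add, map_smul, star_inv₀, Complex.star_def,
      Complex.conj_ofReal, F.srs, F.sr_X α ε η (y := .inl (some i)) (by simp),
      F.sr_X α ε η (y := .inr i) (by simp), Sum.inl.injEq, Sum.inr.injEq, reduceCtorEq, if_false,
      Option.some.injEq, add_zero, eq_comm (a := j)]
    split_ifs with h
    · subst h
      rw [show (1 * ⟪F.Ω, v⟫_ℂ) = (((√(η i ^ 2 + s) : ℝ) : ℂ)⁻¹ ^ 2 * ((η i : ℂ) ^ 2 + (√s : ℂ) ^ 2)) *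
        ⟪F.Ω, v⟫_ℂ by rw [← h1]; field_simp]
      module
    · module

theorem poly_Hs (P : NCPoly n) :
    ∃ K, (polyEval (F.ZZ α ε η s) P).1 F.Ω ∈ (F.bs α ε hη hs).Hs K := by
  refine ⟨(P.coeff.support.sup fun w => (FreeMonoid.toList w).length) + 1, ?_⟩
  rw [coe_poly]
  refine Submodule.sum_mem _ fun w hw => Submodule.smul_mem _ _ (BS.Hs_mono _
    (Nat.succ_le_succ (le_sup (f := fun w => (FreeMonoid.toList w).length) hw)) ?_)
  simp only [← F.bs_Z α ε hη hs]
  exact BS.word_mem _ _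

theorem T_triv {H : Type} [NormedAddCommGroup H] [InnerProductSpace ℂ H] [CompleteSpace H]
    (B : BS n H) (i : Fin n) (v : H) : ‖B.T i 0 v‖ ≤ (B.σ i)⁻¹ * ‖v‖ := by
  have := B.σ_pos i
  rw [BS.T, ContinuousLinearMap.smul_apply, norm_smul, norm_inv, Complex.norm_real,
    Real.norm_of_nonneg this.le]
  refine mul_le_mul_of_nonneg_left (le_trans ?_ (B.norm_Pj_le {0} v)) (by positivity)
  refine (pow_le_pow_iff_left₀ (norm_nonneg _) (norm_nonneg _) two_ne_zero).1 ?_
  rw [BS.norm_Pj, sum_singleton]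
  exact single_le_sum (f := fun i => ‖B.A (some i) 0 v‖ ^ 2) (fun _ _ => by positivity) (mem_univ i)

include hη hs in
theorem fisher_triv : freeFisher F.τ (F.ZZ α ε η s) ≤ ENNReal.ofReal (∑ i, 1 / (η i ^ 2 + s)) := by
  refine (F.fisher_le (F.star_ZZ α ε η s) (fun i => (√(η i ^ 2 + s))⁻¹) fun i P =>
    (F.split_T α ε hη hs i P).trans (T_triv _ _ _)).trans (le_of_eq ?_)
  congr 1
  refine sum_congr rfl fun i _ => ?_
  rw [inv_pow, Real.sq_sqrt (by positivity), one_div]

theorem fisher_low : ∃ C : ℝ, 0 < C ∧ ∀ s, 0 ≤ s →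
    ENNReal.ofReal (n / (C + s)) ≤ freeFisher F.τ (F.ZZ α ε η s) := by
  refine ⟨1 + ∑ i, ‖(model F.gen α ε η i).1 F.Ω‖ ^ 2, by positivity, fun s hs =>
    F.fisher_ge (F.star_ZZ α ε η s) (by positivity) fun i => ?_⟩
  have h1 : ⟪(model F.gen α ε η i).1 F.Ω, F.s (.inr i) F.Ω⟫_ℂ = 0 := by
    rw [F.s_Ω, ← F.rΩ, ← inner_star', F.sr_X α ε η (by simp), F.srΩ]; simp
  rw [coe_ZZ, ContinuousLinearMap.add_apply, ContinuousLinearMap.smul_apply, @norm_add_sq ℂ,
    inner_smul_right, h1, norm_smul, F.s_Ω, F.norm_l, F.norm_Ω, Complex.norm_real,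
    Real.norm_of_nonneg (Real.sqrt_nonneg _), mul_one, Real.sq_sqrt hs]
  have := single_le_sum (f := fun i => ‖(model F.gen α ε η i).1 F.Ω‖ ^ 2)
    (fun _ _ => by positivity) (mem_univ i)
  simp only [mul_zero, map_zero]; linarith

end Fock
end Crest.Agent.FE
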