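import Crest.Agent.FE.Wick

/-! Row 89, job E: operator norm tail for Gaussian Hermitian matrices. -/

set_option autoImplicit false
open Crest.OpAlg Filter Topology MeasureTheory
open scoped InnerProductSpace

namespace Crest.Agent.FE.NT
open HM GP WK

abbrev V (d : ℕ) := EuclideanSpace ℂ (Fin d)

theorem exists_net (d : ℕ) : ∃ N : Finset (V d), N.card ≤ 25 ^ d ∧ (∀ x ∈ N, ‖x‖ ≤ 2) ∧
    ∀ y : V d, ‖y‖ ≤ 2 → ∃ x ∈ N, ‖y - x‖ ≤ 1 := by
  classical
  let Pp : Finset (V d) → Prop := fun s =>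
    (∀ c ∈ s, ‖c‖ ≤ 2) ∧ ∀ c ∈ s, ∀ e ∈ s, c ≠ e → 1 ≤ ‖c - e‖
  have hb : ∀ s, Pp s → s.card ≤ 25 ^ d := by
    intro s hs
    have := Besicovitch.card_le_of_separated s hs.1 hs.2
    rwa [finrank_real_of_complex, finrank_euclideanSpace, Fintype.card_fin, pow_mul] at this
  have hne : {k | ∃ s, Pp s ∧ s.card = k}.Nonempty := ⟨0, ∅, ⟨by simp, by simp⟩, rfl⟩
  have hbd : BddAbove {k | ∃ s, Pp s ∧ s.card = k} :=
    ⟨25 ^ d, by rintro k ⟨s, hs, rfl⟩; exact hb s hs⟩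
  obtain ⟨s, hs, hk⟩ := Nat.sSup_mem hne hbd
  refine ⟨s, hb s hs, hs.1, fun y hy => ?_⟩
  by_contra hcon
  push Not at hcon
  have hys : y ∉ s := fun h => by have := hcon y h; simp at this; linarith
  have : Pp (insert y s) := by
    refine ⟨fun c hc => ?_, fun c hc e he hce => ?_⟩
    · rcases Finset.mem_insert.1 hc with rfl | hc
      exacts [hy, hs.1 c hc]
    · rcases Finset.mem_insert.1 hc with rfl | hc' <;> rcases Finset.mem_insert.1 he with rfl | he'
      · exact absurd rfl hce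
      · exact (hcon e he').le
      · rw [norm_sub_rev]; exact (hcon c hc').le
      · exact hs.2 c hc' e he' hce
  have h2 := le_csSup hbd ⟨insert y s, this, rfl⟩
  rw [Finset.card_insert_of_notMem hys, ← hk] at h2
  omega

theorem norm_le_of_net {d : ℕ} {N : Finset (V d)}
    (hN : ∀ y : V d, ‖y‖ ≤ 2 → ∃ x ∈ N, ‖y - x‖ ≤ 1) (T : V d →L[ℂ] V d) (M : ℝ) (hM : 0 ≤ M)
    (h : ∀ x ∈ N, ∀ y ∈ N, (⟪y, T x⟫_ℂ).re ≤ M) : ‖T‖ ≤ M := by
  have h1 : ∀ x ∈ N, ‖T x‖ ≤ M := by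
    intro x hx
    by_cases h0 : T x = 0
    · simpa [h0] using hM
    have hp : 0 < ‖T x‖ := norm_pos_iff.2 h0
    obtain ⟨y, hy, hy'⟩ := hN (((2 / ‖T x‖ : ℝ) : ℂ) • T x) (by
      rw [norm_smul, Complex.norm_real, Real.norm_of_nonneg (by positivity)]
      field_simp; rfl)
    have e1 : (⟪((2 / ‖T x‖ : ℝ) : ℂ) • T x, T x⟫_ℂ).re = 2 * ‖T x‖ := by
      rw [inner_smul_left, Complex.conj_ofReal, Complex.re_ofReal_mul,
        show (⟪T x, T x⟫_ℂ).re = ‖T x‖ ^ 2 from inner_self_eq_norm_sq (𝕜 := ℂ) (T x)]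
      field_simp
    have e2 : (⟪((2 / ‖T x‖ : ℝ) : ℂ) • T x - y, T x⟫_ℂ).re ≤ ‖T x‖ := by
      refine (Complex.re_le_norm _).trans ((norm_inner_le_norm _ _).trans ?_)
      nlinarith
    rw [inner_sub_left, Complex.sub_re, e1] at e2
    have := h x hx y hy
    linarith
  have h2 : ‖T‖ ≤ (M + ‖T‖) / 2 := by
    refine ContinuousLinearMap.opNorm_le_of_unit_norm (by positivity) fun x hx => ?_
    obtain ⟨y, hy, hy'⟩ := hN ((2 : ℂ) • x) (by rw [norm_smul, hx]; simp)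
    have e : (2 : ℂ) • T x = T y + T ((2 : ℂ) • x - y) := by simp
    have e2 : 2 * ‖T x‖ ≤ M + ‖T‖ := by
      calc 2 * ‖T x‖ = ‖(2 : ℂ) • T x‖ := by rw [norm_smul]; simp
        _ ≤ ‖T y‖ + ‖T ((2 : ℂ) • x - y)‖ := by rw [e]; exact norm_add_le _ _
        _ ≤ M + ‖T‖ * 1 := add_le_add (h1 y hy) ((T.le_opNorm _).trans (by gcongr))
        _ = M + ‖T‖ := by ring
    linarith
  linarith

theorem inner_eq {d : ℕ} (M : Matrix (Fin d) (Fin d) ℂ) (x y : V d) :
    ⟪y, Matrix.toEuclideanCLM (n := Fin d) (𝕜 := ℂ) M x⟫_ℂ =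
      ∑ i, ∑ j, M i j * (starRingEnd ℂ (y i) * x j) := by
  rw [PiLp.inner_apply]
  refine Finset.sum_congr rfl fun i _ => ?_
  simp only [Matrix.ofLp_toEuclideanCLM, RCLike.inner_apply, Matrix.mulVec, dotProduct,
    Finset.sum_mul]
  exact Finset.sum_congr rfl fun j _ => by ring

theorem sum_sq_le {d : ℕ} (x y : V d) :
    ∑ a, (⟪y, Matrix.toEuclideanCLM (n := Fin d) (𝕜 := ℂ) (Eb a) x⟫_ℂ).re ^ 2 ≤
      ‖y‖ ^ 2 * ‖x‖ ^ 2 := by
  set z : Fin d × Fin d → ℂ := fun a => ⟪y, Matrix.toEuclideanCLM (n := Fin d) (𝕜 := ℂ) (Eb a) x⟫_ℂ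
    with hz
  have h1 : ∀ a, z a * starRingEnd ℂ (z a) = ∑ i, ∑ j, ∑ k, ∑ l, (Eb a i j * Eb a l k) *
      (starRingEnd ℂ (y i) * x j * (y k * starRingEnd ℂ (x l))) := by
    intro a
    have hh : ∀ k l, starRingEnd ℂ (Eb a k l) = Eb a l k := fun k l =>
      (hm_herm (Pi.single a 1)).apply l k
    simp only [hz, inner_eq, map_sum, map_mul, hh, Complex.conj_conj]
    rw [Finset.sum_mul]
    refine Finset.sum_congr rfl fun i _ => ?_
    rw [Finset.sum_mul]
    refine Finset.sum_congr rfl fun j _ => ?_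
    rw [Finset.mul_sum]
    refine Finset.sum_congr rfl fun k _ => ?_
    rw [Finset.mul_sum]
    exact Finset.sum_congr rfl fun l _ => by ring
  have h2 : ∑ a, z a * starRingEnd ℂ (z a) = ((‖y‖ ^ 2 * ‖x‖ ^ 2 : ℝ) : ℂ) := by
    simp_rw [h1]
    rw [Finset.sum_comm]
    simp_rw [Finset.sum_comm (s := (Finset.univ : Finset (Fin d × Fin d))), ← Finset.sum_mul, KK]
    simp only [ite_mul, zero_mul, one_mul, ite_and, Finset.sum_ite_eq, Finset.mem_univ, if_true,
      Finset.sum_ite_irrel, Finset.sum_const_zero]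
    rw [EuclideanSpace.norm_sq_eq, EuclideanSpace.norm_sq_eq, Finset.sum_mul_sum]
    push_cast
    refine Finset.sum_congr rfl fun i _ => Finset.sum_congr rfl fun j _ => ?_
    rw [← Complex.conj_mul', ← Complex.mul_conj']; ring
  have h3 : ∑ a, ‖z a‖ ^ 2 = ‖y‖ ^ 2 * ‖x‖ ^ 2 := by
    simp_rw [Complex.mul_conj'] at h2
    exact_mod_cast h2
  rw [← h3]
  refine Finset.sum_le_sum fun a _ => ?_
  exact sq_le_sq' (abs_le.1 (Complex.abs_re_le_norm _)).1 (Complex.re_le_norm _)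

theorem op_tail {n d : ℕ} (hd : 0 < d) (x : Option (Fin n)) :
    (gm (Ix n d)).real {b | 16 < ‖Matrix.toEuclideanCLM (n := Fin d) (𝕜 := ℂ) (G0 b (.inl x))‖} ≤
      (625 * Real.exp (-8)) ^ d := by
  classical
  obtain ⟨N, hc, hN2, hN⟩ := exists_net d
  have hinj : Function.Injective (var (d := d) x) := fun a b h => (var_inj.1 h).2
  let co : V d × V d → Fin d × Fin d → ℝ := fun p a =>
    cd d * (⟪p.2, Matrix.toEuclideanCLM (n := Fin d) (𝕜 := ℂ) (Eb a) p.1⟫_ℂ).re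
  let c : V d × V d → Ix n d → ℝ := fun p => Function.extend (var x) (co p) 0
  have hsub : {b | 16 < ‖Matrix.toEuclideanCLM (n := Fin d) (𝕜 := ℂ) (G0 b (.inl x))‖} ⊆
      ⋃ p ∈ N ×ˢ N, {b : Ix n d → ℝ | 16 ≤ ∑ i, c p i * b i} := by
    intro b hb
    by_contra hcon
    simp only [Set.mem_iUnion, Set.mem_setOf_eq, not_exists, not_le] at hcon
    refine absurd hb (not_lt.2 (norm_le_of_net hN _ 16 (by norm_num) fun u hu v hv => ?_))
    refine le_of_eq_of_le ?_ (hcon (u, v) (Finset.mem_product.2 ⟨hu, hv⟩)).le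
    rw [← Fintype.sum_of_injective (var x) hinj (fun a => co (u, v) a * b (var x a))
      (fun i => c (u, v) i * b i)
      (fun i hi => by simp only [c]; rw [Function.extend_apply' _ _ _ (by simpa using hi)]; simp)
      (fun a => by simp only [c]; rw [hinj.extend_apply])]
    simp only [G0, hm_eq_sum, map_smul, map_sum, ContinuousLinearMap.smul_apply,
      ContinuousLinearMap.sum_apply, inner_smul_right, inner_sum, Finset.mul_sum, Complex.re_sum, co]
    refine Finset.sum_congr rfl fun a _ => ?_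
    simp only [Complex.re_ofReal_mul]; ring
  have hdR : (0 : ℝ) < d := by exact_mod_cast hd
  have ht : ∀ p ∈ N ×ˢ N, (gm (Ix n d)).real {b : Ix n d → ℝ | 16 ≤ ∑ i, c p i * b i} ≤
      Real.exp (-8) ^ d := by
    intro p hp
    obtain ⟨h1, h2⟩ := Finset.mem_product.1 hp
    refine (tail (c p) (16 / d) 16 (by positivity) (by norm_num) ?_).trans (le_of_eq ?_)
    · rw [← Fintype.sum_of_injective (var x) hinj (fun a => co p a ^ 2) (fun i => c p i ^ 2)
        (fun i hi => by simp only [c]; rw [Function.extend_apply' _ _ _ (by simpa using hi)]; simp)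
        (fun a => by simp only [c]; rw [hinj.extend_apply])]
      simp only [co, mul_pow, ← Finset.mul_sum]
      have e : cd d ^ 2 = (d : ℝ)⁻¹ := by rw [cd, inv_pow, Real.sq_sqrt hdR.le]
      rw [e, div_eq_inv_mul]
      refine mul_le_mul_of_nonneg_left ((sum_sq_le _ _).trans ?_) (by positivity)
      have a1 : ‖p.2‖ ^ 2 ≤ 2 ^ 2 := by gcongr; exact hN2 _ h2
      have a2 : ‖p.1‖ ^ 2 ≤ 2 ^ 2 := by gcongr; exact hN2 _ h1
      calc _ ≤ (2 : ℝ) ^ 2 * 2 ^ 2 := by gcongr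
        _ = 16 := by norm_num
    · rw [← Real.exp_nat_mul]; congr 1; field_simp; ring
  refine (measureReal_mono hsub (measure_ne_top _ _)).trans ((measureReal_biUnion_finset_le _ _).trans ?_)
  refine (Finset.sum_le_card_nsmul _ _ _ ht).trans ?_
  rw [Finset.card_product, nsmul_eq_mul, mul_pow]
  refine mul_le_mul_of_nonneg_right ?_ (by positivity)
  have : (N.card : ℝ) ≤ 25 ^ d := by exact_mod_cast hc
  push_cast
  calc (N.card : ℝ) * N.card ≤ 25 ^ d * 25 ^ d := by gcongr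
    _ = 625 ^ d := by rw [← mul_pow]; norm_num

theorem op_tendsto {n : ℕ} (x : Option (Fin n)) :
    Tendsto (fun d => (gm (Ix n d)).real
      {b | 16 < ‖Matrix.toEuclideanCLM (n := Fin d) (𝕜 := ℂ) (G0 b (.inl x))‖}) atTop (𝓝 0) := by
  have h1 : 625 * Real.exp (-8) < 1 := by
    have h := Real.exp_one_gt_d9
    have e : Real.exp 8 = Real.exp 1 ^ 8 := by rw [← Real.exp_nat_mul]; norm_num
    have h2 : (625 : ℝ) < Real.exp 8 := by
      rw [e]
      calc (625 : ℝ) < 2.5 ^ 8 := by norm_num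
        _ ≤ Real.exp 1 ^ 8 := by gcongr; linarith
    rw [Real.exp_neg, ← div_eq_mul_inv, div_lt_one (Real.exp_pos _)]
    exact h2
  refine squeeze_zero' (Eventually.of_forall fun _ => measureReal_nonneg) ?_
    (tendsto_pow_atTop_nhds_zero_of_lt_one (by positivity) h1)
  filter_upwards [eventually_gt_atTop 0] with d hd using op_tail hd x

end Crest.Agent.FE.NT
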