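import Crest.Agent.FE.Model

/-! Row 89: lower bound for the non-microstates entropy. -/

set_option autoImplicit false
set_option linter.unusedSectionVars false
open scoped InnerProductSpace ENNReal
open Crest.OpAlg Finset MeasureTheory Filter Topology

namespace Crest.Agent.FE

theorem log_int {a : ℝ} (ha : 0 < a) : IntegrableOn (fun s : ℝ => 1 / (1 + s) - 1 / (a + s)) (Set.Ioi 0) ∧
    ∫ s in Set.Ioi (0 : ℝ), (1 / (1 + s) - 1 / (a + s)) = Real.log a := by
  have hd : ∀ x ∈ Set.Ici (0 : ℝ), HasDerivAt (fun s => Real.log (s + 1) - Real.log (s + a))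
      (1 / (1 + x) - 1 / (a + x)) x := fun x hx => by
    have hx : 0 ≤ x := hx
    rw [add_comm 1 x, add_comm a x]
    exact (((hasDerivAt_id x).add_const 1).log (by positivity)).sub
      (((hasDerivAt_id x).add_const a).log (by positivity))
  have ht : Tendsto (fun s => Real.log (s + 1) - Real.log (s + a)) atTop (𝓝 0) := by
    simpa using (Real.tendsto_log_comp_add_sub_log 1).sub (Real.tendsto_log_comp_add_sub_log a)
  have hi : IntegrableOn (fun s : ℝ => 1 / (1 + s) - 1 / (a + s)) (Set.Ioi 0) := by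
    rcases le_total 1 a with h | h
    · refine integrableOn_Ioi_deriv_of_nonneg' hd (fun x hx => sub_nonneg.2 ?_) ht
      have hx : 0 < x := hx
      gcongr
    · refine integrableOn_Ioi_deriv_of_nonpos' hd (fun x hx => sub_nonpos.2 ?_) ht
      have hx : 0 < x := hx
      gcongr
  exact ⟨hi, by rw [integral_Ioi_of_hasDerivAt_of_tendsto' hd hi ht]; simp⟩

theorem star_bound {n : ℕ} {Φ : ℝ → ℝ≥0∞} (hm : Measurable Φ) {b : Fin n → ℝ} (hb : ∀ i, 0 < b i)
    {C D : ℝ} (hC : 0 < C) (up : ∀ s, 0 ≤ s → Φ s ≤ ENNReal.ofReal (∑ i, 1 / (b i + s)))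
    (lo : ∀ s, 0 ≤ s → ENNReal.ofReal (n / (C + s)) ≤ Φ s)
    (imp : ∀ s ∈ Set.Ioc (1 : ℝ) 2, (Φ s).toReal ≤ ∑ i, 1 / (b i + s) - D) :
    IntegrableOn (fun s : ℝ => (n : ℝ) / (1 + s) - (Φ s).toReal) (Set.Ioi 0) ∧
      ∑ i, Real.log (b i) + D ≤ ∫ s in Set.Ioi (0 : ℝ), ((n : ℝ) / (1 + s) - (Φ s).toReal) := by
  have i1 : IntegrableOn (fun s : ℝ => ∑ i, (1 / (1 + s) - 1 / (b i + s))) (Set.Ioi 0) :=
    integrable_finset_sum _ fun i _ => (log_int (hb i)).1
  have e1 : ∀ s : ℝ, ∑ i, (1 / (1 + s) - 1 / (b i + s)) = n / (1 + s) - ∑ i, 1 / (b i + s) := fun s => by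
    simp [div_eq_mul_inv]
  have u1 : ∀ s, 0 ≤ s → (Φ s).toReal ≤ ∑ i, 1 / (b i + s) := fun s hs =>
    ENNReal.toReal_le_of_le_ofReal (sum_nonneg fun i _ => by have := hb i; positivity) (up s hs)
  have hi : IntegrableOn (fun s : ℝ => (n : ℝ) / (1 + s) - (Φ s).toReal) (Set.Ioi 0) := by
    refine integrable_of_le_of_le (by fun_prop : Measurable _).aestronglyMeasurable ?_ ?_ i1
      ((log_int hC).1.const_mul n)
    · refine (ae_restrict_iff' measurableSet_Ioi).2 (Eventually.of_forall fun s hs => ?_)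
      have := u1 s (le_of_lt hs)
      simp only [e1]; linarith
    · refine (ae_restrict_iff' measurableSet_Ioi).2 (Eventually.of_forall fun s hs => ?_)
      have := (ENNReal.ofReal_le_iff_le_toReal (ne_top_of_le_ne_top ENNReal.ofReal_ne_top
        (up s (le_of_lt hs)))).1 (lo s (le_of_lt hs))
      simp only [mul_sub, mul_one_div]; linarith
  have i2 : IntegrableOn ((Set.Ioc (1 : ℝ) 2).indicator fun _ => D) (Set.Ioi 0) :=
    ((integrable_indicator_iff measurableSet_Ioc).2 (integrableOn_const (by simp))).integrableOn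
  refine ⟨hi, le_trans (le_of_eq ?_) (setIntegral_mono_on (i1.add i2) hi measurableSet_Ioi fun s hs => ?_)⟩
  · rw [integral_add' i1 i2, integral_finset_sum _ fun i _ => (log_int (hb i)).1,
      setIntegral_indicator measurableSet_Ioc,
      Set.inter_eq_right.2 (Set.Ioc_subset_Ioi_self.trans (Set.Ioi_subset_Ioi zero_le_one))]
    simp only [(log_int (hb _)).2]
    simp; norm_num
  · simp only [Pi.add_apply, e1]
    by_cases h : s ∈ Set.Ioc (1 : ℝ) 2
    · have := imp s h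
      rw [Set.indicator_of_mem h]; linarith
    · have := u1 s (le_of_lt hs)
      rw [Set.indicator_of_notMem h]; linarith

namespace Fock
variable {H : Type} {n : ℕ} [NormedAddCommGroup H] [InnerProductSpace ℂ H]
  [CompleteSpace H] (F : Fock (Lam n) H) (α : Fin n → ℂ) (ε : Fin n → ℝ) {η : Fin n → ℝ}

theorem fisher_imp (hη : ∀ l, 0 < η l) {γ e : ℝ} (hn : 1 ≤ n) (hε : ∀ j k, |ε j * ε k| ≤ γ)
    (hα : ∑ j, ‖α j‖ ^ 2 ≤ e ^ 2) (he : 0 ≤ e) (hγ : n * γ ^ 2 ≤ 1 / 64)
    (hs : 8 * e * (2 * n + 1) ≤ 1 / 4) (hκ : n * (8 * e) ≤ 1 / 100) (hγ1 : γ ≤ 1)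
    (G : Finset (Fin n)) (hG : ∀ i ∈ G, ε i ^ 2 = γ ∧ η i = 1) {s : ℝ} (h : s ∈ Set.Ioc (1 : ℝ) 2) :
    (freeFisher F.τ (F.ZZ α ε η s)).toReal ≤ ∑ i, 1 / (η i ^ 2 + s) - G.card * (γ / 20) := by
  have h0 : 0 ≤ s := by linarith [h.1]
  have hγ0 : 0 ≤ γ := (abs_nonneg _).trans (hε ⟨0, hn⟩ ⟨0, hn⟩)
  set κ := n * (γ * (8 * e))
  have κ0 : 0 ≤ κ := by positivity
  have κ1 : κ ≤ γ / 100 := by nlinarith
  set v := γ + (1 + s) with hv
  have v0 : 2 ≤ v := by linarith [h.1]
  refine (ENNReal.toReal_le_of_le_ofReal (by positivity) (F.fisher_le (F.star_ZZ α ε η s)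
    (fun i => if i ∈ G then (√v + κ) / v else (√(η i ^ 2 + s))⁻¹) fun i P => ?_)).trans ?_
  · refine (F.split_T α ε hη h0 i P).trans ?_
    split_ifs with hi
    · obtain ⟨K, hK⟩ := F.poly_Hs α ε hη h0 P
      have := (F.bs α ε hη h0).T_bound hn
        (fun i => Real.le_sqrt_of_sq_le (by nlinarith [h.1, sq_nonneg (η i)])) hε hα he hγ hs hK i
      have e1 : (F.bs α ε hη h0).ε i ^ 2 + (F.bs α ε hη h0).σ i ^ 2 = v := by
        change ε i ^ 2 + √(η i ^ 2 + s) ^ 2 = _
        rw [Real.sq_sqrt (by positivity), (hG i hi).1, (hG i hi).2, one_pow]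
      rw [e1] at this
      rw [div_mul_eq_mul_div, le_div_iff₀' (by linarith)]
      exact this
    · exact T_triv _ _ _
  · rw [← nsmul_eq_mul, ← sum_const, ← sum_ite_mem_eq G, ← sum_sub_distrib]
    refine sum_le_sum fun i _ => ?_
    split_ifs with hi
    · rw [(hG i hi).2, one_pow, div_pow, add_sq, Real.sq_sqrt (by linarith)]
      have h1 : √v ≤ v := Real.sqrt_le_iff.2 ⟨by linarith, by nlinarith⟩
      have h2 : 1 / v ≤ 1 / (1 + s) - γ / 12 := by
        rw [le_sub_iff_add_le, div_add_div _ _ (by linarith) (by norm_num), div_le_div_iff₀ (by positivity) (by linarith), hv]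
        have : (γ + (1 + s)) * (1 + s) ≤ 4 * 3 := by gcongr <;> linarith [h.2]
        nlinarith
      have h3 : (v + 2 * √v * κ + κ ^ 2) / v ^ 2 ≤ 1 / v + 3 * κ := by
        rw [div_le_iff₀ (by positivity), add_mul, show 1 / v * v ^ 2 = v by field_simp]
        have : √v * κ ≤ v ^ 2 * κ := by gcongr; nlinarith
        have : κ * κ ≤ v ^ 2 * κ := by gcongr; nlinarith
        nlinarith
      linarith
    · rw [inv_pow, Real.sq_sqrt (by positivity), one_div, sub_zero]

theorem meas_ZZ : Measurable fun s => freeFisher F.τ (F.ZZ α ε η s) :=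
  F.fisher_meas fun i => by unfold ZZ heatTuple; fun_prop

end Fock
end Crest.Agent.FE
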