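import Crest.Agent.FE.Defs

/-! Row 89, job D: the volume upper bound. -/

set_option autoImplicit false
open Crest.OpAlg MeasureTheory Filter Topology
open scoped ENNReal

namespace Crest.Agent.FE
namespace Vol

lemma lint_prod {ι : Type} [Fintype ι] (g : ι → ℝ → ℝ) (hg : ∀ i, Integrable (g i))
    (h0 : ∀ i x, 0 ≤ g i x) :
    ∫⁻ y : ι → ℝ, ENNReal.ofReal (∏ i, g i (y i)) = ENNReal.ofReal (∏ i, ∫ x, g i x) := by
  rw [← integral_fintype_prod_volume_eq_prod]
  exact (ofReal_integral_eq_lintegral_ofReal (Integrable.fintype_prod hg)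
    (Eventually.of_forall fun y => Finset.prod_nonneg fun i _ => h0 i _)).symm

lemma tri {ι : Type} [Fintype ι] (p : ι → Prop) (g : ι → ℝ → ℝ) (hg : ∀ i, Integrable (g i))
    (h0 : ∀ i x, 0 ≤ g i x) (c : (ι → ℝ) → ι → ℝ)
    (hc : ∀ a a', (∀ i, p i → a i = a' i) → c a = c a') (hc0 : ∀ a i, p i → c a i = 0) :
    ∫⁻ a : ι → ℝ, ENNReal.ofReal (∏ i, g i (a i - c a i)) ≤ ENNReal.ofReal (∏ i, ∫ x, g i x) := by
  classical
  let e := MeasurableEquiv.piEquivPiSubtypeProd (fun _ : ι => ℝ) p
  rw [← (volume_preserving_piEquivPiSubtypeProd (fun _ : ι => ℝ) p).symm.lintegral_comp_emb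
    e.symm.measurableEmbedding]
  refine (lintegral_prod_le _).trans (le_of_eq ?_)
  have h1 : ∀ x y, ENNReal.ofReal (∏ i, g i (e.symm (x, y) i - c (e.symm (x, y)) i)) =
      ENNReal.ofReal (∏ i : Subtype p, g i (x i)) * ENNReal.ofReal (∏ i : {i // ¬p i},
        g i ((y - fun i : {i // ¬p i} => c (e.symm (x, 0)) i) i)) := fun x y => by
    rw [← ENNReal.ofReal_mul (Finset.prod_nonneg fun i _ => h0 _ _),
      ← Fintype.prod_subtype_mul_prod_subtype p,
      hc (e.symm (x, y)) (e.symm (x, 0)) fun i hi => by simp [e, hi]]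
    congr 2
    · exact Finset.prod_congr rfl fun i _ => by simp [e, i.2, hc0 _ _ i.2]
    · exact Finset.prod_congr rfl fun i _ => by simp [e, i.2]
  have h2 : ∀ x, ∫⁻ y, ENNReal.ofReal (∏ i, g i (e.symm (x, y) i - c (e.symm (x, y)) i)) =
      ENNReal.ofReal (∏ i : Subtype p, g i (x i)) *
        ENNReal.ofReal (∏ i : {i // ¬p i}, ∫ t, g i t) := fun x => by
    simp only [h1]
    rw [lintegral_const_mul' _ _ ENNReal.ofReal_ne_top, lintegral_sub_right_eq_self
      (fun y : {i // ¬p i} → ℝ => ENNReal.ofReal (∏ i : {i // ¬p i}, g i (y i))),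
      lint_prod _ (fun i => hg _) fun i => h0 _]
  refine (lintegral_congr h2).trans ?_
  rw [lintegral_mul_const' _ _ ENNReal.ofReal_ne_top, lint_prod _ (fun i => hg _) fun i => h0 _,
    ← ENNReal.ofReal_mul (Finset.prod_nonneg fun i _ => integral_nonneg (h0 _)),
    Fintype.prod_subtype_mul_prod_subtype p fun i => ∫ t, g i t]

variable {n d : ℕ}

/-- coordinates of a Hermitian matrix -/
noncomputable def co (M : Matrix (Fin d) (Fin d) ℂ) (q : Fin d × Fin d) : ℝ :=
  if q.1 = q.2 then (M q.1 q.1).re else if q.1 < q.2 then √2 * (M q.1 q.2).re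
    else √2 * (M q.2 q.1).im

lemma co_sub (M N : Matrix (Fin d) (Fin d) ℂ) (q : Fin d × Fin d) :
    co (M - N) q = co M q - co N q := by
  simp only [co, Matrix.sub_apply, Complex.sub_re, Complex.sub_im]
  split_ifs <;> ring

lemma co_herm (y : EuclideanSpace ℝ (Fin d × Fin d)) (q : Fin d × Fin d) :
    co (hermitianOfCoords y) q = y q := by
  obtain ⟨i, j⟩ := q
  have h2 : √2 ≠ 0 := by positivity
  rcases lt_trichotomy i j with h | rfl | h
  · simp [co, hermitianOfCoords, h, h.ne]; field_simp
  · simp [co, hermitianOfCoords]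
  · simp [co, hermitianOfCoords, h, h.ne, h.ne', h.not_gt]; field_simp

lemma herm_herm (y : EuclideanSpace ℝ (Fin d × Fin d)) : (hermitianOfCoords y).IsHermitian := by
  ext i j
  rcases lt_trichotomy i j with h | rfl | h
  · simp [hermitianOfCoords, h, h.ne, h.ne', h.not_gt]
  · simp [hermitianOfCoords]
  · simp [hermitianOfCoords, h, h.ne, h.ne', h.not_gt, sub_eq_add_neg]

lemma sum_co {M : Matrix (Fin d) (Fin d) ℂ} (hM : M.IsHermitian) :
    ∑ q, co M q ^ 2 = (M * M).trace.re := by
  have h1 : ∀ i j, co M (i, j) ^ 2 + co M (j, i) ^ 2 = 2 * (M i j * M j i).re := fun i j => by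
    have h2 : √2 ^ 2 = 2 := Real.sq_sqrt (by norm_num)
    have h3 := congrArg Complex.re (hM.apply i j)
    have h4 := congrArg Complex.im (hM.apply i j)
    simp only [Complex.star_def, Complex.conj_re, Complex.conj_im] at h3 h4
    rcases lt_trichotomy i j with h | rfl | h
    · simp only [co, h, h.ne, h.ne', h.not_gt, if_true, if_false, mul_pow, h2, Complex.mul_re,
        ← h3, ← h4]
      ring
    · have : (M i i).im = 0 := by linarith
      simp [co, this]; ring
    · simp only [co, h, h.ne, h.ne', h.not_gt, if_true, if_false, mul_pow, h2, Complex.mul_re,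
        ← h3, ← h4]
      ring
  have h2 : ∑ i, ∑ j, (co M (i, j) ^ 2 + co M (j, i) ^ 2) = 2 * (M * M).trace.re := by
    simp only [h1, Matrix.trace, Matrix.diag, Matrix.mul_apply, Complex.re_sum, Finset.mul_sum]
  simp only [Finset.sum_add_distrib] at h2
  rw [Finset.sum_comm (f := fun i j => co M (j, i) ^ 2)] at h2
  rw [Fintype.sum_prod_type]
  linarith

lemma cont_poly {T : Type} [TopologicalSpace T] (Y : T → Fin n → Matrix (Fin d) (Fin d) ℂ)
    (hY : ∀ i, Continuous fun t => Y t i) (P : NCPoly n) : Continuous fun t => polyEval (Y t) P := by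
  induction P using MonoidAlgebra.induction_on with
  | of w =>
    simp only [polyEval, MonoidAlgebra.lift_of]
    induction w using FreeMonoid.inductionOn' with
    | one => simpa using continuous_const
    | of_mul i w ih => simp only [map_mul, FreeMonoid.lift_eval_of]; exact (hY i).mul ih
  | add P Q hP hQ => simp only [polyEval, map_add]; exact hP.add hQ
  | smul c P hP => simp only [polyEval, map_smul]; exact hP.const_smul c

lemma approx {A : Type} [Ring A] [Algebra ℂ A] (τ : A →ₗ[ℂ] ℂ) (X : Fin n → A) (P : NCPoly n) :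
    ∀ δ > 0, ∀ᶠ q in (atTop : Filter ℕ) ×ˢ 𝓝[>] (0 : ℝ), ∀ d (M : Fin n → Matrix (Fin d) (Fin d) ℂ),
      (∀ w : FreeMonoid (Fin n), (FreeMonoid.toList w).length ≤ q.1 →
        ‖matrixMoment M w - τ (wordEval X w)‖ < q.2) →
      ‖(d : ℂ)⁻¹ * (polyEval M P).trace - τ (polyEval X P)‖ ≤ δ := by
  induction P using MonoidAlgebra.induction_on with
  | of w =>
    intro δ hδ
    filter_upwards [(eventually_ge_atTop (FreeMonoid.toList w).length).prod_mk
      (Ioo_mem_nhdsGT hδ)] with q hq d M h
    simpa [polyEval, matrixMoment, wordEval] using ((h w hq.1).trans hq.2.2).le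
  | add P Q hP hQ =>
    intro δ hδ
    filter_upwards [hP _ (half_pos hδ), hQ _ (half_pos hδ)] with q h1 h2 d M h
    refine le_trans (le_of_eq ?_) ((norm_add_le _ _).trans
      ((add_le_add (h1 d M h) (h2 d M h)).trans (add_halves δ).le))
    simp only [polyEval, map_add, Matrix.trace_add]
    congr 1; ring
  | smul c P hP =>
    intro δ hδ
    filter_upwards [hP _ (show 0 < δ / (‖c‖ + 1) by positivity)] with q h1 d M h
    have := (le_div_iff₀ (by positivity)).1 (h1 d M h)
    have e : (d : ℂ)⁻¹ * (polyEval M (c • P)).trace - τ (polyEval X (c • P)) =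
        c * ((d : ℂ)⁻¹ * (polyEval M P).trace - τ (polyEval X P)) := by
      simp only [polyEval, map_smul, Matrix.trace_smul, smul_eq_mul]; ring
    rw [e, norm_mul]
    nlinarith [norm_nonneg ((d : ℂ)⁻¹ * (polyEval M P).trace - τ (polyEval X P))]

lemma vol (hd : 0 < d) (S : Set (Fin n)) (F : Fin n → NCPoly n) (r : Fin n → ℝ)
    (h1 : ∀ l ∈ S, F l = 0)
    (h2 : ∀ (l : Fin n) (Y Y' : Fin n → Matrix (Fin d) (Fin d) ℂ), (∀ i ∈ S, Y i = Y' i) →
      polyEval Y (F l) = polyEval Y' (F l))
    (h3 : ∀ (l : Fin n) (Y : Fin n → Matrix (Fin d) (Fin d) ℂ), (∀ i, (Y i).IsHermitian) →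
      (polyEval Y (F l)).IsHermitian) (hr : ∀ l, 0 < r l)
    (Γ : Set (EuclideanSpace ℝ (Fin n × (Fin d × Fin d))))
    (hΓ : ∀ a ∈ Γ, ∀ l, ((matrixTuple a l - polyEval (matrixTuple a) (F l)) *
      (matrixTuple a l - polyEval (matrixTuple a) (F l))).trace.re ≤ d * r l ^ 2) :
    (volume Γ).log ≤ ((d : ℝ) ^ 2 * (∑ l, 1 / 2 * Real.log (2 * Real.pi * Real.exp 1 * r l ^ 2) -
      (n : ℝ) / 2 * Real.log d) : ℝ) := by
  have hd' : (0 : ℝ) < d := Nat.cast_pos.2 hd
  let b : Fin n → ℝ := fun l => d / (2 * r l ^ 2)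
  have hb : ∀ l, 0 < b l := fun l => by have := hr l; positivity
  let g : Fin n × (Fin d × Fin d) → ℝ → ℝ := fun i x => Real.exp (1 / 2) * Real.exp (-b i.1 * x ^ 2)
  let c : (Fin n × (Fin d × Fin d) → ℝ) → Fin n × (Fin d × Fin d) → ℝ := fun a i =>
    co (polyEval (matrixTuple (WithLp.toLp 2 a)) (F i.1)) i.2
  have hc : ∀ i, Continuous fun a => c a i := fun i => by
    have := cont_poly (fun a : Fin n × (Fin d × Fin d) → ℝ => matrixTuple (WithLp.toLp 2 a))
      (fun l => continuous_matrix fun j k => by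
        simp only [matrixTuple, hermitianOfCoords]
        split_ifs <;> fun_prop) (F i.1)
    simp only [c, co]
    split_ifs <;> fun_prop
  have key := tri (fun i => i.1 ∈ S) g (fun i => (integrable_exp_neg_mul_sq (hb _)).const_mul _)
    (fun i x => by positivity) c (fun a a' h => funext fun i => by
      simp only [c]
      rw [h2 i.1 _ (matrixTuple (WithLp.toLp 2 a')) fun l hl => by
        simp only [matrixTuple]; congr 2; exact funext fun q => h (l, q) hl])
    (fun a i hi => by simp [c, h1 _ hi, polyEval, co])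
  have hm : Measurable fun a : Fin n × (Fin d × Fin d) → ℝ =>
      ENNReal.ofReal (∏ i, g i (a i - c a i)) :=
    (continuous_finsetProd _ fun i _ => by have := hc i; fun_prop).measurable.ennreal_ofReal
  have h4 := mul_meas_ge_le_lintegral (μ := volume) hm 1
  rw [one_mul, ← (PiLp.volume_preserving_ofLp _).measure_preimage
    (measurableSet_le measurable_const hm).nullMeasurableSet] at h4
  have h5 : ∀ i, 0 < ∫ x, g i x := fun i => by
    have := hb i.1
    rw [integral_const_mul, integral_gaussian]; positivity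
  refine (ENNReal.log_monotone (((measure_mono fun a ha => ?_).trans h4).trans key)).trans ?_
  · refine ENNReal.one_le_ofReal.2 ?_
    simp only [g, ← Real.exp_add, ← Real.exp_sum, Real.one_le_exp_iff, Fintype.sum_prod_type
      (f := fun i : Fin n × (Fin d × Fin d) => 1 / 2 + -b i.1 * (a.ofLp i - c a.ofLp i) ^ 2)]
    refine Finset.sum_nonneg fun l _ => ?_
    have h6 := hΓ a ha l
    have hh : ∀ i, (matrixTuple a i).IsHermitian := fun i => herm_herm _
    rw [← sum_co ((hh l).sub (h3 l _ hh))] at h6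
    have hh' : ∀ q, co (matrixTuple a l) q = a (l, q) := fun q => co_herm _ q
    simp only [co_sub, hh'] at h6
    have h7 := mul_le_mul_of_nonneg_left h6 (hb l).le
    have h8 : b l * (d * r l ^ 2) = d * d / 2 := by have := hr l; simp only [b]; field_simp
    simp only [Finset.sum_add_distrib, ← Finset.mul_sum, Finset.sum_const, Finset.card_univ,
      Fintype.card_prod, Fintype.card_fin, nsmul_eq_mul, Nat.cast_mul]
    simp only [c]
    linarith
  · rw [ENNReal.log_ofReal_of_pos (Finset.prod_pos fun i _ => h5 i), EReal.coe_le_coe_iff,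
      Real.log_prod fun i _ => (h5 i).ne', Fintype.sum_prod_type]
    have h6 : ∀ l q, Real.log (∫ x, g (l, q) x) =
        1 / 2 * Real.log (2 * Real.pi * Real.exp 1 * r l ^ 2) - 1 / 2 * Real.log d := fun l q => by
      have := hb l
      have := hr l
      have := Real.pi_pos
      rw [integral_const_mul, integral_gaussian, Real.log_mul (by positivity) (by positivity),
        Real.log_exp, Real.log_sqrt (by positivity), ← mul_sub,
        ← Real.log_div (by positivity) (by positivity),
        show 2 * Real.pi * Real.exp 1 * r l ^ 2 / d = Real.exp 1 * (Real.pi / b l) by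
          simp only [b]; field_simp, Real.log_mul (by positivity) (by positivity), Real.log_exp]
      ring
    simp only [h6, Finset.sum_const, Finset.card_univ, Fintype.card_prod, Fintype.card_fin,
      nsmul_eq_mul, ← Finset.mul_sum, Finset.sum_sub_distrib, Nat.cast_mul]
    exact le_of_eq (by ring)

end Vol

theorem chiUpper : ChiUpper := by
  intro A _ _ τ n X S F r h1 h2 h3 hr h4
  let P : Fin n → NCPoly n := fun l =>
    (MonoidAlgebra.of ℂ _ (FreeMonoid.of l) - F l) * (MonoidAlgebra.of ℂ _ (FreeMonoid.of l) - F l)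
  have hP : ∀ (B : Type) [Ring B] [Algebra ℂ B] (Y : Fin n → B) l,
      polyEval Y (P l) = (Y l - polyEval Y (F l)) * (Y l - polyEval Y (F l)) := fun B _ _ Y l => by
    simp only [polyEval, P, map_mul, map_sub, MonoidAlgebra.lift_of, FreeMonoid.lift_eval_of]
  obtain ⟨⟨m, ε⟩, h5, h6⟩ := ((eventually_all.2 fun l => Vol.approx τ X (P l) _ (sub_pos.2 (h4 l))).and
    (eventually_mem_nhdsWithin.prod_inr _)).exists
  refine iSup₂_le fun R _ => iInf_le_of_le m (iInf₂_le_of_le ε h6 (limsup_le_of_le ?_ ?_))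
  · isBoundedDefault
  filter_upwards [eventually_gt_atTop 0] with d hd
  have hd' : (0 : ℝ) < d := Nat.cast_pos.2 hd
  have h7 := Vol.vol hd S F r h1 (fun l => h2 l d) (fun l => h3 l d) hr (microstates τ X R m d ε)
    fun a ha l => by
      have := (Complex.re_le_norm _).trans (h5 l d _ ha.2)
      rw [hP, hP, Complex.sub_re, ← Complex.ofReal_natCast, ← Complex.ofReal_inv,
        Complex.re_ofReal_mul, sub_le_sub_iff_right, inv_mul_le_iff₀ hd'] at this
      exact this
  refine (add_le_add_left (mul_le_mul_of_nonneg_left h7 (by positivity)) _).trans (le_of_eq ?_)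
  rw [← EReal.coe_mul, ← EReal.coe_add, inv_mul_cancel_left₀ (by positivity), sub_add_cancel]

end Crest.Agent.FE
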