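import Crest.Agent.FE.Herm
import Crest.Agent.FE.GP

/-! Row 89, job E: Wick recursion for Gaussian matrices and convergence of mixed moments. -/

set_option autoImplicit false
open Crest.OpAlg MvPolynomial Filter Topology

namespace Crest.Agent.FE.WK
open HM GP

/-- index set of the Gaussian variables -/
abbrev Ix (n d : ℕ) := (Fin d × Fin d) ⊕ (Fin n × (Fin d × Fin d))

variable {n d : ℕ}

def var : Option (Fin n) → Fin d × Fin d → Ix n d
  | none, a => .inl a
  | some l, a => .inr (l, a)

theorem var_inj {x y : Option (Fin n)} {a b : Fin d × Fin d} :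
    var x a = var y b ↔ x = y ∧ a = b := by
  cases x <;> cases y <;> simp [var]

noncomputable def zt (d : ℕ) : Bool → ℂ
  | true => Complex.exp (2 * Real.pi * Complex.I / d)
  | false => (Complex.exp (2 * Real.pi * Complex.I / d))⁻¹

noncomputable def Ud (d : ℕ) (b : Bool) : Matrix (Fin d) (Fin d) ℂ :=
  Matrix.diagonal fun j => zt d b ^ (j : ℕ)

noncomputable def cd (d : ℕ) : ℝ := (Real.sqrt d)⁻¹

theorem cd_sq (d : ℕ) : (cd d : ℂ) * (cd d : ℂ) = (d : ℂ)⁻¹ := by
  rw [← Complex.ofReal_mul, cd, ← mul_inv, Real.mul_self_sqrt (Nat.cast_nonneg d)]; simp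

abbrev PR (n d : ℕ) := MvPolynomial (Ix n d) ℂ

noncomputable def FF (n : ℕ) (a : Fin d × Fin d) : Matrix (Fin d) (Fin d) (PR n d) :=
  ((cd d : ℂ) • Eb a).map C

noncomputable def G (d : ℕ) : Gen n → Matrix (Fin d) (Fin d) (PR n d)
  | .inl x => ∑ a, (X (var x a) : PR n d) • FF n a
  | .inr b => (Ud d b).map C

noncomputable def G0 (b : Ix n d → ℝ) : Gen n → Matrix (Fin d) (Fin d) ℂ
  | .inl x => (cd d : ℂ) • hm fun a => b (var x a)
  | .inr c => Ud d c

theorem ev_G (b : Ix n d → ℝ) (g : Gen n) : (ev b).mapMatrix (G d g) = G0 b g := by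
  ext i j
  rcases g with x | c
  · simp [G, G0, FF, ev, hm_eq_sum, Matrix.sum_apply, Finset.mul_sum, mul_left_comm]
  · simp [G, G0, ev]

noncomputable def W (d : ℕ) (w : List (Gen n)) : Matrix (Fin d) (Fin d) (PR n d) :=
  (w.map (G d)).prod

noncomputable def t (d : ℕ) (w : List (Gen n)) : PR n d := C (d : ℂ)⁻¹ * (W d w).trace

theorem ev_t (b : Ix n d → ℝ) (w : List (Gen n)) :
    ev b (t d w) = (d : ℂ)⁻¹ * ((w.map (G0 b)).prod).trace := by
  have : (ev b).mapMatrix (W d w) = (w.map (G0 b)).prod := by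
    rw [W, map_list_prod, List.map_map]; congr 2; funext g; exact ev_G b g
  rw [t, map_mul, ← this]
  simp [ev, Matrix.trace]

theorem W_cons (g : Gen n) (w : List (Gen n)) : W d (g :: w) = G d g * W d w := by simp [W]

theorem W_append (v w : List (Gen n)) : W d (v ++ w) = W d v * W d w := by simp [W]

theorem FK (i j k l : Fin d) :
    ∑ a, FF n a i j * FF n a k l = if i = l ∧ j = k then C (d : ℂ)⁻¹ else 0 := by
  have : ∑ a, FF n a i j * FF n a k l = C ((d : ℂ)⁻¹ * ∑ a, Eb a i j * Eb a k l) := by
    rw [Finset.mul_sum, map_sum]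
    refine Finset.sum_congr rfl fun a _ => ?_
    simp only [FF, Matrix.map_apply, Matrix.smul_apply, smul_eq_mul]
    rw [← map_mul, ← cd_sq]; congr 1; ring
  rw [this, KK]; split_ifs <;> simp

theorem comp1 (A B : Matrix (Fin d) (Fin d) (PR n d)) :
    ∑ a, (FF n a * A).trace * (FF n a * B).trace = C (d : ℂ)⁻¹ * (A * B).trace := by
  have h : ∀ a, (FF n a * A).trace * (FF n a * B).trace =
      ∑ i, ∑ j, ∑ k, ∑ l, (FF n a i j * FF n a k l) * (A j i * B l k) := by
    intro a
    simp only [Matrix.trace, Matrix.diag_apply, Matrix.mul_apply]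
    rw [Finset.sum_mul]
    refine Finset.sum_congr rfl fun i _ => ?_
    rw [Finset.sum_mul]
    refine Finset.sum_congr rfl fun j _ => ?_
    rw [Finset.mul_sum]
    refine Finset.sum_congr rfl fun k _ => ?_
    rw [Finset.mul_sum]
    exact Finset.sum_congr rfl fun l _ => by ring
  simp_rw [h]
  rw [Finset.sum_comm]
  simp_rw [Finset.sum_comm (s := (Finset.univ : Finset (Fin d × Fin d))), ← Finset.sum_mul, FK]
  simp only [ite_mul, zero_mul, ite_and, Finset.sum_ite_eq, Finset.mem_univ, if_true,
    Matrix.trace, Matrix.diag_apply, Matrix.mul_apply, Finset.mul_sum]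
  exact Finset.sum_comm

theorem comp2 (A B : Matrix (Fin d) (Fin d) (PR n d)) :
    ∑ a, (FF n a * (A * FF n a * B)).trace = C (d : ℂ)⁻¹ * A.trace * B.trace := by
  have h : ∀ a, (FF n a * (A * FF n a * B)).trace =
      ∑ i, ∑ j, ∑ l, ∑ k, (FF n a i j * FF n a k l) * (A j k * B l i) := by
    intro a
    simp only [Matrix.trace, Matrix.diag_apply, Matrix.mul_apply, Finset.sum_mul, Finset.mul_sum]
    refine Finset.sum_congr rfl fun i _ => Finset.sum_congr rfl fun j _ =>
      Finset.sum_congr rfl fun k _ => Finset.sum_congr rfl fun l _ => by ring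
  simp_rw [h]
  rw [Finset.sum_comm]
  simp_rw [Finset.sum_comm (s := (Finset.univ : Finset (Fin d × Fin d))), ← Finset.sum_mul, FK]
  simp only [ite_mul, zero_mul, ite_and, Finset.sum_ite_eq, Finset.mem_univ, if_true,
    Matrix.trace, Matrix.diag_apply, Finset.mul_sum, Finset.sum_mul, Finset.sum_ite_irrel,
    Finset.sum_const_zero]
  exact Finset.sum_congr rfl fun i _ => Finset.sum_congr rfl fun j _ => by ring

/-- entrywise derivative -/
noncomputable def DM (i : Ix n d) (M : Matrix (Fin d) (Fin d) (PR n d)) :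
    Matrix (Fin d) (Fin d) (PR n d) := M.map (pderiv i)

theorem DM_mul (i : Ix n d) (M N : Matrix (Fin d) (Fin d) (PR n d)) :
    DM i (M * N) = DM i M * N + M * DM i N := by
  ext1 j k
  simp only [DM, Matrix.map_apply, Matrix.mul_apply, map_sum, pderiv_mul, Matrix.add_apply,
    Finset.sum_add_distrib]

theorem DM_C (i : Ix n d) (M : Matrix (Fin d) (Fin d) ℂ) : DM i (M.map C) = 0 := by
  ext1 j k; simp [DM]

theorem DM_one (i : Ix n d) : DM i (1 : Matrix (Fin d) (Fin d) (PR n d)) = 0 := by
  ext1 j k; simp only [DM, Matrix.map_apply, Matrix.one_apply]; split_ifs <;> simp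

theorem pderiv_trace (i : Ix n d) (M : Matrix (Fin d) (Fin d) (PR n d)) :
    pderiv i M.trace = (DM i M).trace := by
  simp [DM, Matrix.trace]

theorem DM_G (x : Option (Fin n)) (a : Fin d × Fin d) (g : Gen n) :
    DM (var x a) (G d g) = if g = .inl x then FF n a else 0 := by
  rcases g with y | c
  · ext1 j k
    simp only [DM, G, Matrix.map_apply, Matrix.sum_apply, Matrix.smul_apply, smul_eq_mul, map_sum,
      pderiv_mul, FF, pderiv_C, mul_zero, add_zero, pderiv_X, Pi.single_apply, var_inj]
    by_cases h : y = x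
    · subst h; simp
    · simp [h]
  · simp [G, DM_C]

theorem DM_W (x : Option (Fin n)) (a : Fin d × Fin d) (w : List (Gen n)) :
    DM (var x a) (W d w) =
      ((cuts (.inl x) w).map fun c => W d c.1 * FF n a * W d c.2).sum := by
  induction w with
  | nil => simp [W, cuts, DM_one]
  | cons g w ih =>
    rw [W_cons, DM_mul, ih, DM_G, cuts, List.map_append, List.sum_append, List.map_map,
      ← List.sum_map_mul_left]
    congr 1
    · split_ifs <;> simp [W]
    · congr 2; funext c; simp [W_cons, mul_assoc]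

theorem sum_list_comm {α β M : Type} [Fintype α] [AddCommMonoid M] (l : List β) (f : α → β → M) :
    ∑ a, (l.map (f a)).sum = (l.map fun c => ∑ a, f a c).sum := by
  induction l with
  | nil => simp
  | cons c l ih => simp [Finset.sum_add_distrib, ih]

theorem trace_list {β R : Type} [CommRing R] (l : List β) (f : β → Matrix (Fin d) (Fin d) R) :
    (l.map f).sum.trace = (l.map fun c => (f c).trace).sum := by
  induction l with
  | nil => simp
  | cons c l ih => simp [ih]

noncomputable def P (d : ℕ) (L : List (List (Gen n))) : PR n d := (L.map (t d)).prod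

def cross (x : Option (Fin n)) (Q : List (Gen n)) : List (List (Gen n)) → List (List (List (Gen n)))
  | [] => []
  | w :: L => (cuts (.inl x) w).map (fun c => (Q ++ (c.2 ++ c.1)) :: L) ++
      (cross x Q L).map fun L' => w :: L'

theorem P_cons (w : List (Gen n)) (L : List (List (Gen n))) : P d (w :: L) = t d w * P d L := by
  simp [P]

theorem part1 (x : Option (Fin n)) (Q : List (Gen n)) :
    ∑ a, pderiv (var x a) (C (d : ℂ)⁻¹ * (FF n a * W d Q).trace) =
      ((cuts (.inl x) Q).map fun c => t d c.1 * t d c.2).sum := by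
  have : ∀ a, pderiv (var x a) (C (d : ℂ)⁻¹ * (FF n a * W d Q).trace) =
      ((cuts (.inl x) Q).map fun c =>
        C (d : ℂ)⁻¹ * (FF n a * (W d c.1 * FF n a * W d c.2)).trace).sum := by
    intro a
    rw [pderiv_C_mul, pderiv_trace, DM_mul, DM_W, FF, DM_C, zero_mul, zero_add,
      ← List.sum_map_mul_left, trace_list, ← List.sum_map_mul_left]
  simp_rw [this]
  rw [sum_list_comm]
  congr 2; funext c
  rw [← Finset.mul_sum, comp2, t, t]; ring

theorem part2 (x : Option (Fin n)) (Q : List (Gen n)) (L : List (List (Gen n))) :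
    ∑ a, (C (d : ℂ)⁻¹ * (FF n a * W d Q).trace) * pderiv (var x a) (P d L) =
      C ((d : ℂ)⁻¹ ^ 2) * ((cross x Q L).map (P d)).sum := by
  induction L with
  | nil => simp [P, cross]
  | cons w L ih =>
    simp_rw [P_cons, pderiv_mul, mul_add]
    rw [Finset.sum_add_distrib, cross, List.map_append, List.sum_append, mul_add, List.map_map,
      List.map_map]
    refine congrArg₂ (· + ·) ?_ ?_
    · have : ∀ a, C (d : ℂ)⁻¹ * (FF n a * W d Q).trace * (pderiv (var x a) (t d w) * P d L) =
          ((cuts (.inl x) w).map fun c => C (d : ℂ)⁻¹ * C (d : ℂ)⁻¹ * P d L *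
            ((FF n a * W d Q).trace * (FF n a * (W d c.2 * W d c.1)).trace)).sum := by
        intro a
        rw [t, pderiv_C_mul, pderiv_trace, DM_W, trace_list, ← List.sum_map_mul_left,
          ← List.sum_map_mul_right, ← List.sum_map_mul_left]
        congr 2; funext c
        rw [mul_assoc (W d c.1), Matrix.trace_mul_comm (W d c.1), mul_assoc (FF n a)]; ring
      simp_rw [this]
      rw [sum_list_comm, ← List.sum_map_mul_left]
      congr 2; funext c
      rw [← Finset.mul_sum, comp1, Function.comp, P_cons, t, W_append, W_append, map_pow]; ring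
    · have : ∀ a, C (d : ℂ)⁻¹ * (FF n a * W d Q).trace * (t d w * pderiv (var x a) (P d L)) =
          t d w * (C (d : ℂ)⁻¹ * (FF n a * W d Q).trace * pderiv (var x a) (P d L)) := by
        intro a; ring
      simp_rw [this]
      rw [← Finset.mul_sum, ih, mul_left_comm, ← List.sum_map_mul_left]
      rfl

theorem wick (x : Option (Fin n)) (Q : List (Gen n)) (L : List (List (Gen n))) :
    EE (P d ((.inl x :: Q) :: L)) =
      ((cuts (.inl x) Q).map fun c => EE (P d (c.1 :: c.2 :: L))).sum +
        (d : ℂ)⁻¹ ^ 2 * ((cross x Q L).map fun L' => EE (P d L')).sum := by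
  have h1 : P d ((.inl x :: Q) :: L) =
      ∑ a, X (var x a) * ((C (d : ℂ)⁻¹ * (FF n a * W d Q).trace) * P d L) := by
    rw [P_cons, t, W_cons, G, Finset.sum_mul, Matrix.trace_sum, Finset.mul_sum, Finset.sum_mul]
    refine Finset.sum_congr rfl fun a _ => ?_
    rw [smul_mul_assoc, Matrix.trace_smul, smul_eq_mul]; ring
  rw [h1, map_sum]
  simp_rw [EE_ibp]
  rw [← map_sum]
  simp_rw [pderiv_mul (f := C (d : ℂ)⁻¹ * _)]
  rw [Finset.sum_add_distrib, ← Finset.sum_mul, part1, part2, map_add, ← smul_eq_C_mul, map_smul,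
    smul_eq_mul, ← List.sum_map_mul_right, map_list_sum, map_list_sum, List.map_map, List.map_map]
  congr 3
  funext c; simp [P_cons, mul_assoc]

/-! ### counting -/

def cnt (w : List (Gen n)) : ℕ := w.countP Sum.isLeft

def cntL (L : List (List (Gen n))) : ℕ := (L.map cnt).sum

theorem cnt_append (v w : List (Gen n)) : cnt (v ++ w) = cnt v + cnt w := by simp [cnt]

theorem cuts_cnt (x : Option (Fin n)) (Q : List (Gen n)) :
    ∀ c ∈ cuts (.inl x : Gen n) Q, cnt c.1 + cnt c.2 + 1 = cnt Q := by
  induction Q with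
  | nil => simp [cuts]
  | cons g Q ih =>
    intro c hc
    rw [cuts, List.mem_append] at hc
    rcases hc with hc | hc
    · split_ifs at hc with h
      · subst h; simp only [List.mem_singleton] at hc; subst hc; simp [cnt]
      · simp at hc
    · obtain ⟨c', hc', rfl⟩ := List.mem_map.1 hc
      have := ih c' hc'
      simp only [cnt, List.countP_cons] at this ⊢; omega

theorem cross_cnt (x : Option (Fin n)) (Q : List (Gen n)) (L : List (List (Gen n))) :
    ∀ L' ∈ cross x Q L, cntL L' + 1 = cnt Q + cntL L := by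
  induction L with
  | nil => simp [cross]
  | cons w L ih =>
    intro L' hL'
    rw [cross, List.mem_append] at hL'
    rcases hL' with h | h
    · obtain ⟨c, hc, rfl⟩ := List.mem_map.1 h
      have := cuts_cnt x w c hc
      simp only [cntL, List.map_cons, List.sum_cons, cnt_append]; omega
    · obtain ⟨L'', hc, rfl⟩ := List.mem_map.1 h
      have := ih L'' hc
      simp only [cntL, List.map_cons, List.sum_cons] at this ⊢; omega

theorem red (w : List (Gen n)) (hw : cnt w = 0) : ∃ (b : Bool) (p : ℕ),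
    ∀ (M : Type) [Monoid M] (a : Gen n → M), a (.inr true) * a (.inr false) = 1 →
      a (.inr false) * a (.inr true) = 1 → (w.map a).prod = a (.inr b) ^ p := by
  induction w with
  | nil => exact ⟨true, 0, fun M _ a _ _ => by simp⟩
  | cons g w ih =>
    rcases g with x | c
    · simp [cnt] at hw
    · obtain ⟨b, p, h⟩ := ih (by simpa [cnt] using hw)
      by_cases hb : c = b
      · subst hb
        exact ⟨c, p + 1, fun M _ a h1 h2 => by
          rw [List.map_cons, List.prod_cons, h M a h1 h2, pow_succ']⟩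
      · rcases p with _ | p
        · exact ⟨c, 1, fun M _ a h1 h2 => by
            rw [List.map_cons, List.prod_cons, h M a h1 h2]; simp⟩
        · refine ⟨b, p, fun M _ a h1 h2 => ?_⟩
          rw [List.map_cons, List.prod_cons, h M a h1 h2, pow_succ', ← mul_assoc]
          have : a (.inr c) * a (.inr b) = 1 := by
            cases c <;> cases b <;> simp_all
          rw [this, one_mul]

theorem zt_ne (d : ℕ) : zt d true ≠ 0 := Complex.exp_ne_zero _

theorem Ud_tf (d : ℕ) : Ud d true * Ud d false = 1 := by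
  rw [Ud, Ud, Matrix.diagonal_mul_diagonal, ← Matrix.diagonal_one]
  congr 1; funext j
  rw [← mul_pow, show zt d false = (zt d true)⁻¹ from rfl, mul_inv_cancel₀ (zt_ne d), one_pow]

theorem Ud_ft (d : ℕ) : Ud d false * Ud d true = 1 := by
  rw [Ud, Ud, Matrix.diagonal_mul_diagonal, ← Matrix.diagonal_one]
  congr 1; funext j
  rw [← mul_pow, show zt d false = (zt d true)⁻¹ from rfl, inv_mul_cancel₀ (zt_ne d), one_pow]

theorem trace_Ud (b : Bool) (p : ℕ) (hp : p + 1 < d) : (Ud d b ^ (p + 1)).trace = 0 := by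
  have hprim : IsPrimitiveRoot (zt d b) d := by
    have := Complex.isPrimitiveRoot_exp d (by omega)
    cases b
    · exact this.inv
    · exact this
  rw [Ud, Matrix.diagonal_pow, Matrix.trace_diagonal]
  simp only [Pi.pow_apply]
  simp_rw [← pow_mul, mul_comm _ (p + 1), pow_mul]
  rw [Fin.sum_univ_eq_sum_range (fun j => (zt d b ^ (p + 1)) ^ j),
    geom_sum_eq (hprim.pow_ne_one_of_pos_of_lt (by omega) hp), ← pow_mul, mul_comm, pow_mul,
    hprim.pow_eq_one]
  simp

section conv
variable {A : Type} [Ring A] [Algebra ℂ A] (τ : A →ₗ[ℂ] ℂ) (a : Gen n → A)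

theorem base (h1 : τ 1 = 1) (huv : a (.inr true) * a (.inr false) = 1)
    (hvu : a (.inr false) * a (.inr true) = 1)
    (h0 : ∀ (b : Bool) (p : ℕ), τ (a (.inr b) ^ (p + 1)) = 0) (w : List (Gen n)) (hw : cnt w = 0) :
    ∀ᶠ d in atTop, t d w = C (τ (w.map a).prod) := by
  obtain ⟨b, p, h⟩ := red w hw
  filter_upwards [eventually_gt_atTop p] with d hd
  have e : ∀ c, G (n := n) d (.inr c) = (C : ℂ →+* PR n d).mapMatrix (Ud d c) := fun c => rfl
  rw [t, W, h _ (G d) (by rw [e, e, ← map_mul, Ud_tf, map_one])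
    (by rw [e, e, ← map_mul, Ud_ft, map_one]), h A a huv hvu, e, ← map_pow]
  have : ((C : ℂ →+* PR n d).mapMatrix (Ud d b ^ p)).trace = C (Ud d b ^ p).trace := by
    simp [Matrix.trace]
  rw [this, ← map_mul]
  congr 1
  rcases p with _ | p
  · have : (d : ℂ) ≠ 0 := by exact_mod_cast hd.ne'
    simp [h1, this]
  · rw [trace_Ud b p hd, h0, mul_zero]

theorem conv (h1 : τ 1 = 1) (htr : ∀ x y, τ (x * y) = τ (y * x))
    (huv : a (.inr true) * a (.inr false) = 1) (hvu : a (.inr false) * a (.inr true) = 1)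
    (h0 : ∀ (b : Bool) (p : ℕ), τ (a (.inr b) ^ (p + 1)) = 0)
    (hSD : ∀ (x : Option (Fin n)) (Q : List (Gen n)), τ (a (.inl x) * (Q.map a).prod) =
      ((cuts (.inl x) Q).map fun c => τ (c.1.map a).prod * τ (c.2.map a).prod).sum)
    (L : List (List (Gen n))) :
    Tendsto (fun d => EE (P d L)) atTop (𝓝 (L.map fun w => τ (w.map a).prod).prod) := by
  induction hN : cntL L using Nat.strong_induction_on generalizing L with
  | _ N ih =>
  by_cases hL : ∀ w ∈ L, cnt w = 0
  · have : ∀ᶠ d in atTop, ∀ w ∈ L.toFinset, t d w = C (τ (w.map a).prod) :=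
      (eventually_all_finset _).2 fun w hw =>
        base τ a h1 huv hvu h0 w (hL w (List.mem_toFinset.1 hw))
    refine tendsto_const_nhds.congr' ?_
    filter_upwards [this] with d hd
    rw [P, List.map_congr_left (fun w hw => hd w (List.mem_toFinset.2 hw)),
      ← EE_C (ι := Ix n d) (List.prod _), map_list_prod, List.map_map]
    rfl
  · push Not at hL
    obtain ⟨w, hw, hc⟩ := hL
    obtain ⟨L1, L2, rfl⟩ := List.append_of_mem hw
    obtain ⟨g, hg, hg'⟩ := List.countP_pos_iff.1 (Nat.pos_of_ne_zero hc)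
    obtain ⟨w1, w2, rfl⟩ := List.append_of_mem hg
    obtain ⟨x, rfl⟩ := Sum.isLeft_iff.1 hg'
    have e1 : ∀ d, P d (L1 ++ (w1 ++ .inl x :: w2) :: L2) =
        P d ((.inl x :: (w2 ++ w1)) :: (L1 ++ L2)) := by
      intro d
      have : t d (w1 ++ .inl x :: w2) = t d (.inl x :: (w2 ++ w1)) := by
        rw [t, t, W_append, Matrix.trace_mul_comm, ← W_append]; rfl
      simp only [P, List.map_append, List.map_cons, List.prod_append, List.prod_cons, this]; ring
    have e2 : ((L1 ++ (w1 ++ .inl x :: w2) :: L2).map fun w => τ (w.map a).prod).prod =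
        ((cuts (.inl x) (w2 ++ w1)).map fun c =>
          ((c.1 :: c.2 :: (L1 ++ L2)).map fun w => τ (w.map a).prod).prod).sum +
        0 * ((cross x (w2 ++ w1) (L1 ++ L2)).map fun L' =>
          (L'.map fun w => τ (w.map a).prod).prod).sum := by
      have : τ ((w1 ++ .inl x :: w2).map a).prod = τ (a (.inl x) * ((w2 ++ w1).map a).prod) := by
        rw [List.map_append, List.prod_append, htr]; simp [mul_assoc]
      simp only [List.map_append (l₁ := L1), List.map_cons, List.prod_append, List.prod_cons, this,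
        hSD, zero_mul, add_zero, ← mul_assoc, List.sum_map_mul_right]
      rw [mul_assoc, mul_left_comm, ← mul_assoc]
    have hcnt : N = cnt (w2 ++ w1) + cntL (L1 ++ L2) + 1 := by
      rw [← hN]
      simp only [cntL, cnt, List.map_append, List.map_cons, List.sum_append, List.sum_cons,
        List.countP_append, List.countP_cons, Sum.isLeft_inl, if_true]
      omega
    simp_rw [e1, wick]
    rw [e2]
    refine Tendsto.add (tendsto_list_sum _ fun c hc => ih _ ?_ _ rfl)
      (Tendsto.mul ?_ (tendsto_list_sum _ fun L' hL' => ih _ ?_ _ rfl))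
    · have := cuts_cnt x _ c hc
      simp only [cntL, List.map_cons, List.sum_cons] at hcnt ⊢; omega
    · simpa using (tendsto_inv_atTop_nhds_zero_nat (𝕜 := ℂ)).pow 2
    · have := cross_cnt x _ _ L' hL'; omega

end conv

end Crest.Agent.FE.WK
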